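import Vale.Agent.P106.U.H384.Runs
import Vale.Agent.P106.U.S3.F2

/-!
# P106 / U / H384 : the runs of young levels of the record (helper384)

`gd` = kind of an index (young, not exceptional, one regime), `lkR R gd Cu e` = the indices `e`, `e + 1` are in one run.

* `VD` : what is used of `S3.F2` (path, diagonal, cuts, prefix letters, curvature of the line).
* `rk_lo`, `rk_hi` : `rk - a` is constant along a run up to one block.
* `pf_run`, `ao_run` : prefix letter, curvature of the line along a run.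
* **`card_lkR`** : at most `#{v ∈ Vs, v + 1 ∉ Vs} + #Xs + #Cu + 1` runs.
-/

set_option autoImplicit false

namespace Vale.Agent.P106.U.H384.F1

open Finset Vale.Agent.P127 Vale.Agent.P127.Stk Vale.Agent.P127.U Vale.Agent.P106.W
open Vale.Agent.P127.U.CellD (q2 rd Nb)
open Vale.Agent.P106.U.Cell (Pth Ray)
open Vale.Agent.P106.U.S3 Vale.Agent.P106.U.H384.Runs

variable {Ω : Type} [Fintype Ω] {τ υ π : Type} {R : Run Ω τ υ} {p : Run.Num}

section path

lemma a_mul (hP : R.Path p) {i : ℕ} (hi : i ≤ R.n + p.J) : R.m * lv R i = R.C.a i := by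
  have hm : 0 < R.m := hP.m1
  have key : ∀ i ≤ R.n + p.J, ∃ z, R.C.a i = R.m * z := by
    intro i
    induction i with
    | zero => exact fun _ => ⟨0, by rw [hP.a0, Nat.mul_zero]⟩
    | succ i ih =>
      intro h
      obtain ⟨z, hz⟩ := ih (by omega)
      rcases hP.stp i (by omega) with h1 | h1 | h1
      · exact ⟨z + 1, by rw [h1.1, hz, Nat.mul_add, Nat.mul_one]⟩
      · exact ⟨z, by rw [h1.1, hz]⟩
      · exact ⟨z, by rw [h1.1, hz]⟩
  obtain ⟨z, hz⟩ := key i hi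
  unfold lv
  rw [hz, Nat.mul_div_cancel_left z hm]

lemma lv_mono (R : Run Ω τ υ) {i j : ℕ} (h : i ≤ j) : lv R i ≤ lv R j := Nat.div_le_div_right (R.C.ha h)

lemma lv_isA (hP : R.Path p) {e : ℕ} (h : R.IsA e) : lv R (e + 1) = lv R e + 1 := by
  have hm : 0 < R.m := hP.m1
  unfold lv
  rw [show R.C.a (e + 1) = R.C.a e + R.m from h, Nat.add_div_right _ hm]

lemma lv_succ (hP : R.Path p) {e : ℕ} (he : e < R.n + p.J) :
    (lv R (e + 1) = lv R e ∧ R.C.a (e + 1) = R.C.a e) ∨ (lv R (e + 1) = lv R e + 1 ∧ R.IsA e) := by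
  rcases hP.stp e he with h | h | h
  · exact Or.inr ⟨lv_isA hP h.1, h.1⟩
  · exact Or.inl ⟨by unfold lv; rw [h.1], h.1⟩
  · exact Or.inl ⟨by unfold lv; rw [h.1], h.1⟩

lemma a_eq (hP : R.Path p) {i j : ℕ} (hi : i ≤ R.n + p.J) (hj : j ≤ R.n + p.J) (h : lv R i = lv R j) :
    R.C.a i = R.C.a j := by
  rw [← a_mul hP hi, ← a_mul hP hj, h]

/-- the a-step of a level between -/
lemma exists_a (hP : R.Path p) {i j z : ℕ} (h : i ≤ j) (hj : j ≤ R.n + p.J) (h1 : lv R i ≤ z) (h2 : z < lv R j) :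
    ∃ e, i ≤ e ∧ e < j ∧ R.IsA e ∧ lv R e = z := by
  induction j, h using Nat.le_induction with
  | base => omega
  | succ j hij ih =>
    rcases Nat.lt_or_ge z (lv R j) with h3 | h3
    · obtain ⟨e, e1, e2, e3, e4⟩ := ih (by omega) h3
      exact ⟨e, e1, by omega, e3, e4⟩
    · rcases lv_succ hP (e := j) (by omega) with h4 | h4
      · omega
      · exact ⟨j, hij, by omega, h4.2, by omega⟩

/-- two a-steps of one level -/
lemma isA_inj (hP : R.Path p) {i j : ℕ} (hi : R.IsA i) (hj : R.IsA j) (h : lv R i = lv R j) : i = j := by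
  have h1 := lv_isA hP hi
  have h2 := lv_isA hP hj
  rcases Nat.lt_trichotomy i j with h3 | h3 | h3
  · have := lv_mono R (show i + 1 ≤ j from h3)
    omega
  · exact h3
  · have := lv_mono R (show j + 1 ≤ i from h3)
    omega

/-- the diagonal -/
lemma rk_diag (hP : R.Path p) {Vs : Finset ℕ}
    (hd : ∀ i j, j ≤ R.n + p.J → R.IsA i → R.IsA j → R.C.a j = R.C.a i + R.m → (lv R i ∈ Vs ∨ lv R j ∈ Vs) →
      R.C.rk j = R.C.rk i + R.m) :
    ∀ d i j, lv R j = lv R i + d → j ≤ R.n + p.J → i ≤ j → R.IsA i → R.IsA j →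
      (∀ z, lv R i ≤ z → z ≤ lv R j → z ∈ Vs) → R.C.rk j = R.C.rk i + R.m * d := by
  intro d
  induction d with
  | zero =>
    intro i j h _ _ hi hj _
    rw [isA_inj hP hi hj (by omega)]
    omega
  | succ d ih =>
    intro i j h hj hij hi hj' hV
    obtain ⟨e, e1, e2, e3, e4⟩ := exists_a hP (z := lv R i + d) hij hj (by omega) (by omega)
    have h1 := ih i e e4 (by omega) e1 hi e3 fun z z1 z2 => hV z z1 (by omega)
    have h2 : R.C.a j = R.C.a e + R.m := by
      rw [← a_mul hP hj, ← a_mul hP (i := e) (by omega), h, e4, ← Nat.add_assoc, Nat.mul_add R.m (lv R i + d) 1,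
        Nat.mul_one]
    have h3 := hd e j hj e3 hj' h2 (Or.inr (hV _ (by omega) le_rfl))
    rw [h3, h1, Nat.mul_add, Nat.mul_one]
    omega

end path

/-- what is used of `S3.F2` -/
structure VD (R : Run Ω τ υ) (p : Run.Num) (F : Pf R π) (K : ℝ) (Vs Xs Cu : Finset ℕ) (gd : ℕ → Prop) : Prop where
  pth : R.Path p
  V : ∀ i, gd i → lv R i ∈ Vs ∧ lv R i ∉ Xs
  /-- the kind does not change inside the young, non exceptional levels -/
  reg : ∀ e < R.n, gd e → lv R (e + 1) ∈ Vs → lv R (e + 1) ∉ Xs → gd (e + 1)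
  diag : ∀ i j, j ≤ R.n + p.J → R.IsA i → R.IsA j → R.C.a j = R.C.a i + R.m → (lv R i ∈ Vs ∨ lv R j ∈ Vs) →
    R.C.rk j = R.C.rk i + R.m
  pfH : ∀ i < R.n + p.J, Fn R.Q (F.pf i) (F.pf (i + 1))
  gvA : ∀ i ≤ R.n + p.J, ∀ ω, 0 < R.Q.w ω → |R.al i ω - F.gv i (F.pf i ω)| * q2 (R.C.a i) ≤ K * q2 (R.C.rk i)
  aoA : ∀ k ≤ R.n + p.J, lv R k ∈ Vs → ∀ ω, 0 < R.Q.w ω →
    |R.al k ω - F.Ao (lv R k) ω| * q2 (R.C.a k) ≤ K * q2 (R.C.rk k)
  cut : ∀ i j, i ≤ j → j ≤ R.n + p.J → lv R i ∈ Vs → lv R j ∈ Vs → lv R j ≤ lv R i + 1 →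
    (lv R i = lv R j ∨ lv R i ∉ Cu) → Fn R.Q (F.pf j) (F.pf i) ∧ ∀ ω, 0 < R.Q.w ω → F.Ao (lv R j) ω = F.Ao (lv R i) ω

/-- the indices `e`, `e + 1` are in one run -/
def lkR (R : Run Ω τ υ) (gd : ℕ → Prop) (Cu : Finset ℕ) (e : ℕ) : Prop :=
  gd e ∧ gd (e + 1) ∧ (lv R e = lv R (e + 1) ∨ lv R e ∉ Cu)

namespace VD

variable {F : Pf R π} {K : ℝ} {Vs Xs Cu : Finset ℕ} {gd : ℕ → Prop} {i j : ℕ}

/-- all indices of a linked interval are of the kind -/
lemma gd_of (hl : ∀ e, i ≤ e → e < j → lkR R gd Cu e) (hi : gd i) {e : ℕ} (h1 : i ≤ e) (h2 : e ≤ j) : gd e := by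
  rcases h1.eq_or_lt with h3 | h3
  · rwa [← h3]
  · obtain ⟨x, rfl⟩ : ∃ x, e = x + 1 := ⟨e - 1, by omega⟩
    exact (hl x (by omega) (by omega)).2.1

/-- all levels of a linked interval are young -/
lemma lv_run (h : VD R p F K Vs Xs Cu gd) (hij : i ≤ j) (hj : j ≤ R.n + p.J)
    (hl : ∀ e, i ≤ e → e < j → lkR R gd Cu e) (hi : gd i) {z : ℕ} (h1 : lv R i ≤ z) (h2 : z ≤ lv R j) : z ∈ Vs := by
  rcases h2.eq_or_lt with h3 | h3
  · rw [h3]
    exact (h.V j (gd_of hl hi hij le_rfl)).1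
  · obtain ⟨e, e1, e2, -, e4⟩ := exists_a h.pth hij hj h1 h3
    rw [← e4]
    exact (h.V e (gd_of hl hi e1 e2.le)).1

/-- **the diagonal, from below** -/
lemma rk_lo (h : VD R p F K Vs Xs Cu gd) (hij : i ≤ j) (hj : j ≤ R.n + p.J)
    (hl : ∀ e, i ≤ e → e < j → lkR R gd Cu e) (hi : gd i) : R.C.rk i + R.C.a j ≤ R.C.rk j + R.C.a i + R.m := by
  have hP := h.pth
  have hk := R.C.hk hij
  rcases (lv_mono R hij).eq_or_lt with h0 | h0
  · have := a_eq hP (i := i) (j := j) (by omega) hj h0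
    omega
  · obtain ⟨e1, a1, a2, a3, a4⟩ := exists_a hP (z := lv R i) hij hj le_rfl h0
    obtain ⟨e2, b1, b2, b3, b4⟩ := exists_a hP (z := lv R j - 1) hij hj (by omega) (by omega)
    have c0 : e1 ≤ e2 := by
      by_contra hc
      have h3 := lv_mono R (show e2 + 1 ≤ e1 by omega)
      have h4 := lv_isA hP b3
      omega
    have c1 := rk_diag hP h.diag (lv R e2 - lv R e1) e1 e2 (by have := lv_mono R c0; omega) (by omega) c0 a3 b3
      fun z z1 z2 => h.lv_run hij hj hl hi (by omega) (by omega)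
    have c2 := R.C.hk a1
    have c3 := R.C.hk b2.le
    have d1 := a_mul hP (i := i) (by omega)
    have d2 := a_mul hP hj
    have d3 : R.m * lv R j = R.m * lv R i + R.m * (lv R e2 - lv R e1) + R.m := by
      rw [a4, b4, ← Nat.mul_add, ← Nat.mul_succ]
      congr 1
      omega
    omega

/-- **the diagonal, from above** -/
lemma rk_hi (h : VD R p F K Vs Xs Cu gd) (hij : i ≤ j) {k : ℕ} (hjk : j ≤ k) (hk : k ≤ R.n + p.J)
    (hl : ∀ e, i ≤ e → e < k → lkR R gd Cu e) (hi : gd i) (h1 : 1 ≤ lv R i) (h2 : lv R j < lv R k) :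
    R.C.rk j + R.C.a i ≤ R.C.rk i + R.C.a j + R.m := by
  have hP := h.pth
  have z0 : lv R 0 = 0 := by
    unfold lv
    rw [hP.a0, Nat.zero_div]
  obtain ⟨e, a1, a2, a3, a4⟩ := exists_a hP (z := lv R j) hjk hk le_rfl h2
  obtain ⟨e1, b1, b2, b3, b4⟩ := exists_a hP (z := lv R i) (hij.trans hjk) hk le_rfl (by have := lv_mono R hij; omega)
  obtain ⟨e0, d1, d2, d3, d4⟩ := exists_a hP (i := 0) (j := i) (z := lv R i - 1) (Nat.zero_le _) (by omega) (by omega)
    (by omega)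
  have c0 : e1 ≤ e := by
    by_contra hc
    have h3 := lv_mono R (show e + 1 ≤ e1 by omega)
    have h4 := lv_isA hP a3
    have h5 := lv_mono R hij
    omega
  have c1 := rk_diag hP h.diag (lv R e - lv R e1) e1 e (by have := lv_mono R c0; omega) (by omega) c0 b3 a3
    fun z z1 z2 => h.lv_run (hij.trans hjk) hk hl hi (by omega) (by omega)
  have m1 := a_mul hP (i := i) (by omega)
  have m2 := a_mul hP (i := j) (by omega)
  have m3 := a_mul hP (i := e1) (by omega)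
  have m4 := a_mul hP (i := e0) (by omega)
  have c2 : R.C.rk e1 = R.C.rk e0 + R.m := by
    refine h.diag e0 e1 (by omega) d3 b3 ?_ (Or.inr ?_)
    · rw [← m3, ← m4, b4, d4, ← Nat.mul_succ]
      congr 1
      omega
    · rw [b4]
      exact (h.V i hi).1
  have c3 := R.C.hk a1
  have c4 := R.C.hk d2.le
  have m5 : R.m * lv R j = R.m * lv R i + R.m * (lv R e - lv R e1) := by
    rw [a4, b4, ← Nat.mul_add]
    congr 1
    have := lv_mono R hij
    omega
  omega

/-- the prefix letters are nested -/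
lemma pf_le (h : VD R p F K Vs Xs Cu gd) (hij : i ≤ j) (hj : j ≤ R.n + p.J) : Fn R.Q (F.pf i) (F.pf j) := by
  induction j, hij using Nat.le_induction with
  | base => exact fun _ _ _ _ e => e
  | succ j hj' ih =>
    intro ω ω' p1 p2 e
    exact ih (by omega) ω ω' p1 p2 (h.pfH j (by omega) ω ω' p1 p2 e)

/-- the curvature of the line along a run -/
lemma ao_run (h : VD R p F K Vs Xs Cu gd) (hij : i ≤ j) (hj : j ≤ R.n + p.J)
    (hl : ∀ e, i ≤ e → e < j → lkR R gd Cu e) {ω : Ω} (hω : 0 < R.Q.w ω) : F.Ao (lv R j) ω = F.Ao (lv R i) ω := by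
  induction j, hij using Nat.le_induction with
  | base => rfl
  | succ j hj' ih =>
    obtain ⟨g1, g2, g3⟩ := hl j hj' (by omega)
    rw [← ih (by omega) fun e e1 e2 => hl e e1 (by omega)]
    refine (h.cut j (j + 1) (by omega) hj (h.V j g1).1 (h.V _ g2).1 ?_ g3).2 ω hω
    rcases lv_succ h.pth (e := j) (by omega) with h4 | h4 <;> omega

/-- the prefix letter along a run -/
lemma pf_run (h : VD R p F K Vs Xs Cu gd) (hij : i ≤ j) (hj : j ≤ R.n + p.J)
    (hl : ∀ e, i ≤ e → e < j → lkR R gd Cu e) : Fn R.Q (F.pf j) (F.pf i) := by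
  induction j, hij using Nat.le_induction with
  | base => exact fun _ _ _ _ e => e
  | succ j hj' ih =>
    obtain ⟨g1, g2, g3⟩ := hl j hj' (by omega)
    have h1 := ih (by omega) fun e e1 e2 => hl e e1 (by omega)
    have h2 := (h.cut j (j + 1) (by omega) hj (h.V j g1).1 (h.V _ g2).1 (by
      rcases lv_succ h.pth (e := j) (by omega) with h4 | h4 <;> omega) g3).1
    exact fun ω ω' p1 p2 e => h2 ω ω' p1 p2 (h1 ω ω' p1 p2 e)

/-- **the number of the runs** -/
theorem card_lkR (h : VD R p F K Vs Xs Cu gd) (S : Finset ℕ) (hS : ∀ i ∈ S, i ≤ R.n ∧ gd i) :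
    (S.image (rs (lkR R gd Cu))).card ≤ (Vs.filter fun v => v + 1 ∉ Vs).card + Xs.card + Cu.card + 1 := by
  classical
  have hP := h.pth
  set E : Finset ℕ := (range R.n).filter fun e => gd e ∧ ¬ lkR R gd Cu e with hE
  have e1 := card_runs (lk := lkR R gd Cu) (gd := gd) (n := R.n) (fun e _ he => he.2.1) S hS E
    (fun e h1 h2 h3 => Finset.mem_filter.2 ⟨Finset.mem_range.2 h1, h2, h3⟩)
  have key : ∀ e ∈ E, R.IsA e ∧ lv R e ∈ (Vs.filter fun v => v + 1 ∉ Vs) ∪ (Xs.image fun v => v - 1) ∪ Cu := by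
    intro e he
    obtain ⟨h1, h2, h3⟩ := Finset.mem_filter.1 he
    rw [Finset.mem_range] at h1
    have h4 : ¬ (gd (e + 1) ∧ (lv R e = lv R (e + 1) ∨ lv R e ∉ Cu)) := fun h4 => h3 ⟨h2, h4.1, h4.2⟩
    rcases lv_succ hP (e := e) (by omega) with h5 | h5
    · exfalso
      refine h4 ⟨h.reg e h1 h2 ?_ ?_, Or.inl h5.1.symm⟩
      · rw [h5.1]; exact (h.V e h2).1
      · rw [h5.1]; exact (h.V e h2).2
    · refine ⟨h5.2, ?_⟩
      rw [Finset.mem_union, Finset.mem_union, Finset.mem_filter, Finset.mem_image]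
      by_cases h6 : lv R (e + 1) ∈ Vs
      · by_cases h7 : lv R (e + 1) ∈ Xs
        · left; right
          exact ⟨_, h7, by omega⟩
        · right
          by_contra h8
          exact h4 ⟨h.reg e h1 h2 h6 h7, Or.inr h8⟩
      · left; left
        refine ⟨(h.V e h2).1, ?_⟩
        rwa [← h5.1]
  have e2 : E.card ≤ ((Vs.filter fun v => v + 1 ∉ Vs) ∪ (Xs.image fun v => v - 1) ∪ Cu).card := by
    refine Finset.card_le_card_of_injOn (lv R) (fun e he => (key e he).2) ?_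
    intro e he e' he' hee
    exact isA_inj hP (key e he).1 (key e' he').1 hee
  have e3 := Finset.card_union_le ((Vs.filter fun v => v + 1 ∉ Vs) ∪ (Xs.image fun v => v - 1)) Cu
  have e4 := Finset.card_union_le (Vs.filter fun v => v + 1 ∉ Vs) (Xs.image fun v => v - 1)
  have e5 : (Xs.image fun v => v - 1).card ≤ Xs.card := Finset.card_image_le
  omega

end VD

end Vale.Agent.P106.U.H384.F1
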