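import Vale.Agent.P106.U.H384.MtrF1
import Vale.Agent.P106.U.H785.MtrF2

/-!
# P106 / U / H384 : F1 and F1+ over the record, young levels, kappa regime (helper384)

* `NK K` : the natural number of the nestedness constant; `dfK` : the sum of the defects.
* **`f1_kap`** : over `Run.Ok`, `F2`, `F2o`: there is a set `Cu` of cuts with `m #runs ≤ 3 h / B + m` such that for every family
  of pairs in the composition index (`Prk`): F1 (`X = v` to `m b1 + pp` digits) and F1+ (`X =` these digits and the curvature letter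
  of the run, `δ` digits below the index).
-/

set_option autoImplicit false

namespace Vale.Agent.P106.U.H384.F1

open Finset Vale.Agent.P127 Vale.Agent.P127.Stk Vale.Agent.P127.U Vale.Agent.P106.W
open Vale.Agent.P127.U.CellD (q2 rd Nb q2_pos q2_add q2_le q2_mul_pow)
open Vale.Agent.P106.U.Cell (Pth Ray)
open Vale.Agent.P106.U.S3 Vale.Agent.P106.U.H384.Runs
open Vale.Agent.P106.U.H785.Mtr (Mtd Lt YI)

variable {Ω : Type} [Fintype Ω] {τ υ π : Type} {R : Run Ω τ υ} {p : Run.Num} {F : Pf R π} {K c' g' gU K' : ℝ}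
  {Vs Xs : Finset ℕ} {B bS bV μ : ℕ} {o : Fin 7 → ℝ} {o' : ℕ → ℝ}

/-- number of the nestedness constant -/
noncomputable def NK (K : ℝ) : ℕ := ⌈641 * (4 * K) ^ 2⌉₊

/-- the sum of the defects, per multiplicity -/
noncomputable def dfK (R : Run Ω τ υ) (p : Run.Num) (K K' : ℝ) (μ : ℕ) : ℝ :=
  H122.cI (4 * K) (NK K) * (2 * K' * (R.n + p.J + 1) * q2 (μ / 8))

/-- number of the runs -/
def nR (Vs Xs Cu : Finset ℕ) : ℕ := (Vs.filter fun z => z + 1 ∉ Vs).card + Xs.card + Cu.card + 1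

/-- **F1 and F1+, young levels, kappa regime** -/
theorem f1_kap (hok : R.Ok p K c' g' gU) (hf2 : F2 R p K B bS bV F Vs Xs) (h1 : 1 ≤ K)
    (hB : (100 * K) ^ 20 ≤ (B : ℝ)) (hr : 100 * (R.m * B) ≤ R.r0) (hμB : μ ≤ B) (hμ : μ ≤ R.C.μ)
    (hK' : (100 * K) ^ 20 ≤ K') (hFo : F2o R p B bS bV F Vs Xs μ K' o o') (hb : 8 * μ ≤ R.m * R.b1) :
    ∃ Cu : Finset ℕ, (R.m : ℝ) * nR Vs Xs Cu ≤ 3 * (R.h / B) + R.m ∧ VD R p F K Vs Xs Cu (gdK R Vs Xs) ∧
      ∀ (f : ℕ → ℕ) (Nz K1 L N N2 pp δ N0 : ℕ) (ι : Type) (G : Finset ι) (u v : ι → ℕ), Monotone f →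
        (∀ j < Nz, f j < f (j + 1)) → f Nz ≤ R.n → 2 * μ + R.m ≤ K1 → K ≤ N0 →
        Prk R (gdK R Vs Xs) Cu f Nz K1 L N G u v → (∀ j, (G.filter fun x => v x = j).card ≤ N2) →
        (∑ x ∈ G, mi R.Q (vL R pp) ((mt R F μ o o').mtr (f (v x)) (R.m * R.b1))
          (fun ω => (LDk ((mt R F μ o o').fz (f (u x)) (f (u x))) (R.m * R.b1) (f (u x)) ω,
            LTh ((mt R F μ o o').fz (f (u x)) (f (u x))) (R.m * R.b1) (f (v x)) ω)) ≤
          nR Vs Xs Cu * (N * (L * (pp * Real.log 2))) + (N + N2 : ℕ) * dfK R p K K' μ) ∧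
        ∑ x ∈ G, mi R.Q (vA R F pp δ (rs (lkR R (gdK R Vs Xs) Cu) (f (u x)))) ((mt R F μ o o').mtr (f (v x)) (R.m * R.b1))
          (fun ω => (LDk ((mt R F μ o o').fz (f (u x)) (f (u x))) (R.m * R.b1) (f (u x)) ω,
            LTh ((mt R F μ o o').fz (f (u x)) (f (u x))) (R.m * R.b1) (f (v x)) ω)) ≤
          nR Vs Xs Cu * (N * (L * (pp * Real.log 2 + ((δ + R.m) * Real.log 2 + Real.log (8 * N0 + 3))))) +
            (N + N2 : ℕ) * dfK R p K K' μ := by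
  have hP := hok.pth
  have m1 := hP.m1
  have mB : B ≤ R.m * B := Nat.le_mul_of_pos_left B m1
  have B1 : 1 ≤ B := by
    by_contra hc
    have : B = 0 := by omega
    rw [this] at hB
    have : (1 : ℝ) ≤ (100 * K) ^ 20 := one_le_pow₀ (by linarith)
    norm_num at hB
    linarith
  obtain ⟨Cu, c1, hV⟩ := VD.of_F2 hP B1 hf2 (by linarith)
  refine ⟨Cu, c1, hV, ?_⟩
  intro f Nz K1 L N N2 pp δ N0 ι G u v hf hfs hfn hK1 hN0 hG hN2
  have hK'0 : (0 : ℝ) ≤ K' := le_trans (by positivity) hK'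
  have k7 : 640 * (8 * (4 * K)) ^ 7 ≤ K' := by
    refine le_trans ?_ hK'
    have a : (1 : ℝ) ≤ K ^ 13 := one_le_pow₀ h1
    have e1 : 640 * (8 * (4 * K)) ^ 7 = 640 * 32 ^ 7 * K ^ 7 := by ring
    have e2 : (100 * K) ^ 20 = 100 ^ 20 * (K ^ 7 * K ^ 13) := by ring
    rw [e1, e2]
    have h7 : 0 ≤ K ^ 7 := by positivity
    have : K ^ 7 ≤ K ^ 7 * K ^ 13 := le_mul_of_one_le_right h7 a
    calc 640 * 32 ^ 7 * K ^ 7 ≤ 100 ^ 20 * K ^ 7 := mul_le_mul_of_nonneg_right (by norm_num) h7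
      _ ≤ _ := mul_le_mul_of_nonneg_left this (by norm_num)
  have hM : 641 * (4 * K) ^ 2 ≤ (NK K : ℝ) := Nat.le_ceil _
  have hsum := sum_nuK2 (K₁ := 4 * K) hP hFo hK'0 (NK K) hf hfs hfn hG hN2
  have hI : ∀ i ≤ R.n, gdK R Vs Xs i → i ∈ YI R p Vs := fun i hi hg => ⟨by omega, hg.1⟩
  have hy : ∀ ω, 0 < R.Q.w ω → (mt R F μ o o').Hy (4 * K) (YI R p Vs) ω := fun ω hω =>
    H785.Mtr.hy_mt hok hf2 h1 hB hr hμB hμ hω
  have l2 : 0 ≤ Real.log 2 := Real.log_nonneg (by norm_num)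
  have l8 : 0 ≤ Real.log (8 * (N0 : ℝ) + 3) := Real.log_nonneg (by
    have : (0 : ℝ) ≤ N0 := Nat.cast_nonneg _
    linarith)
  constructor
  · have main := f1K hV (by linarith : (1 : ℝ) ≤ 4 * K) k7 hM (by omega) hb hI hy hf hfs hfn hK1 hG
      (fun _ => vL R pp) (H := pp * Real.log 2) (by positivity) (fun s i _ _ _ _ => hc_vL F pp i)
    refine main.trans (add_le_add (le_of_eq ?_) hsum)
    rfl
  · have main := f1K hV (by linarith : (1 : ℝ) ≤ 4 * K) k7 hM (by omega) hb hI hy hf hfs hfn hK1 hG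
      (fun s => vA R F pp δ s) (H := pp * Real.log 2 + ((δ + R.m) * Real.log 2 + Real.log (8 * N0 + 3)))
      (by positivity) (fun s i hsi hi hl hg => hc_vA hV (by linarith) hsi (by omega) hl hg pp δ hN0)
    refine main.trans (add_le_add (le_of_eq ?_) hsum)
    rfl

end Vale.Agent.P106.U.H384.F1
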