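import Vale.Agent.P106.U.H384.RunsR
import Vale.Agent.P106.U.H122.MtrI

/-!
# P106 / U / H384 : the sums F1 and F1+ over the young levels, kappa regime (helper384)

`D = mt R F μ o o'` (785's data of the record), `b = m b1`, indices `f j` (composition), runs `lkR R (gdK ..) Cu`.

* `AL R F δ s` : curvature of the line of the run with the start `s`, to `δ` digits below the index: ONE variable along the run.
* `hc_AL`, `hc_XL` : its entropy given the prefix letter; `al_AL` : it determines the curvature of the steps of the run.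
* `near_mt` : the cells `mtr` are near-nested along a run; `exK`, `sum_exK` : exceptional events and their sum.
* **`f1K`** : the sum of `I(X ; mtr (f v) | LDk, LTh)`, `X` one variable per run; `f1K_v`, `f1K_vA` : `X = v` digits, with `AL`.
-/

set_option autoImplicit false

namespace Vale.Agent.P106.U.H384.F1

open Finset Vale.Agent.P127 Vale.Agent.P127.Stk Vale.Agent.P127.U Vale.Agent.P106.W
open Vale.Agent.P127.U.CellD (q2 rd Nb q2_pos q2_add q2_le q2_mul_pow)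
open Vale.Agent.P106.U.Cell (Pth Ray)
open Vale.Agent.P106.U.S3 Vale.Agent.P106.U.H384.Runs
open Vale.Agent.P106.U.H785.Mtr (Mtd Lt)

variable {Ω : Type} [Fintype Ω] {τ υ π : Type} {R : Run Ω τ υ} {p : Run.Num} {F : Pf R π} {K : ℝ}
  {Vs Xs Cu : Finset ℕ} {gd : ℕ → Prop} {i j s : ℕ}

/-! ### the curvature letter of a run -/

section letter

/-- scale of the curvature letter -/
noncomputable def cA (R : Run Ω τ υ) (δ s : ℕ) : ℝ := (2 : ℝ) ^ (R.C.rk s + δ) * q2 (R.C.a s)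

lemma cA_pos (R : Run Ω τ υ) (δ s : ℕ) : 0 < cA R δ s := mul_pos (by positivity) (q2_pos _)

/-- **curvature letter of the run with the start `s`** -/
noncomputable def AL (R : Run Ω τ υ) (F : Pf R π) (δ s : ℕ) (ω : Ω) : ℤ := fl1 0 (cA R δ s * F.Ao (lv R s) ω)

/-- two scales -/
lemma cA_le {δ m : ℕ} (h : R.C.rk s + R.C.a i ≤ R.C.rk i + R.C.a s + m) :
    cA R δ s * q2 (R.C.rk i) ≤ 2 ^ (δ + m) * q2 (R.C.a i) := by
  have h1 : (2 : ℝ) ^ (R.C.rk s + δ + R.C.a i) ≤ 2 ^ (δ + m + R.C.rk i + R.C.a s) :=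
    pow_le_pow_right₀ (by norm_num) (by omega)
  have e1 : cA R δ s * q2 (R.C.rk i) = (2 : ℝ) ^ (R.C.rk s + δ + R.C.a i) *
      (q2 (R.C.a s) * q2 (R.C.rk i) * q2 (R.C.a i)) := by
    unfold cA
    rw [pow_add _ _ (R.C.a i)]
    have := q2_mul_pow (R.C.a i)
    calc _ = (2 : ℝ) ^ (R.C.rk s + δ) * q2 (R.C.a s) * q2 (R.C.rk i) * (2 ^ R.C.a i * q2 (R.C.a i)) := by
          rw [this, mul_one]
      _ = _ := by ring
  have e2 : (2 : ℝ) ^ (δ + m) * q2 (R.C.a i) = (2 : ℝ) ^ (δ + m + R.C.rk i + R.C.a s) *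
      (q2 (R.C.a s) * q2 (R.C.rk i) * q2 (R.C.a i)) := by
    rw [pow_add _ _ (R.C.a s), pow_add _ _ (R.C.rk i)]
    have h2 := q2_mul_pow (R.C.a s)
    have h3 := q2_mul_pow (R.C.rk i)
    calc _ = (2 : ℝ) ^ (δ + m) * q2 (R.C.a i) * (2 ^ R.C.a s * q2 (R.C.a s)) * (2 ^ R.C.rk i * q2 (R.C.rk i)) := by
          rw [h2, h3, mul_one, mul_one]
      _ = _ := by ring
  rw [e1, e2]
  refine mul_le_mul_of_nonneg_right h1 ?_
  have := q2_pos (R.C.a s)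
  have := q2_pos (R.C.rk i)
  have := q2_pos (R.C.a i)
  positivity

/-- the curvature of the line of the run against the number of the prefix letter -/
lemma ao_gv (h : VD R p F K Vs Xs Cu gd) (hsi : s ≤ i) (hi : i ≤ R.n + p.J)
    (hl : ∀ e, s ≤ e → e < i → lkR R gd Cu e) (hg : gd i) {ω : Ω} (hω : 0 < R.Q.w ω) :
    |F.Ao (lv R s) ω - F.gv i (F.pf i ω)| * q2 (R.C.a i) ≤ 2 * K * q2 (R.C.rk i) := by
  have h1 := h.gvA i hi ω hω
  have h2 := h.aoA i hi (h.V i hg).1 ω hω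
  rw [h.ao_run hsi hi hl hω] at h2
  have h3 : |F.Ao (lv R s) ω - F.gv i (F.pf i ω)| ≤ |R.al i ω - F.gv i (F.pf i ω)| +
      |R.al i ω - F.Ao (lv R s) ω| := by
    rw [show F.Ao (lv R s) ω - F.gv i (F.pf i ω) = (R.al i ω - F.gv i (F.pf i ω)) - (R.al i ω - F.Ao (lv R s) ω) by ring]
    exact abs_sub _ _
  have := mul_le_mul_of_nonneg_right h3 (q2_pos (R.C.a i)).le
  linarith

/-- **entropy of the curvature letter** given anything which determines the prefix letter -/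
theorem hc_AL (h : VD R p F K Vs Xs Cu gd) (hK : 0 ≤ K) (hsi : s ≤ i) (hi : i ≤ R.n + p.J)
    (hl : ∀ e, s ≤ e → e < i → lkR R gd Cu e) (hgs : gd s) {S : Type*} {E : Ω → S} (hE : Fn R.Q (F.pf i) E) (δ : ℕ)
    {N0 : ℕ} (hN : K ≤ N0) : hc R.Q (AL R F δ s) E ≤ (δ + R.m) * Real.log 2 + Real.log (8 * N0 + 3) := by
  have hgi : gd i := VD.gd_of hl hgs hsi le_rfl
  have hlo := h.rk_lo hsi hi hl hgs
  have hc1 := cA_le (R := R) (s := s) (i := i) (δ := δ) (m := R.m) hlo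
  have hcp := cA_pos R δ s
  set M : ℕ := 4 * N0 * 2 ^ (δ + R.m) with hM
  have hq := q2_pos (R.C.a i)
  have h1 : ∀ ω ω', 0 < R.Q.w ω → 0 < R.Q.w ω' → E ω = E ω' → |AL R F δ s ω' - AL R F δ s ω| ≤ M + 1 := by
    intro ω ω' p1 p2 e
    have e1 := ao_gv h hsi hi hl hgi p1
    have e2 := ao_gv h hsi hi hl hgi p2
    rw [← hE ω ω' p1 p2 e] at e2
    have e3 : |F.Ao (lv R s) ω' - F.Ao (lv R s) ω| * q2 (R.C.a i) ≤ 4 * K * q2 (R.C.rk i) := by
      have : |F.Ao (lv R s) ω' - F.Ao (lv R s) ω| ≤ |F.Ao (lv R s) ω' - F.gv i (F.pf i ω)| +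
          |F.Ao (lv R s) ω - F.gv i (F.pf i ω)| := by
        rw [show F.Ao (lv R s) ω' - F.Ao (lv R s) ω = (F.Ao (lv R s) ω' - F.gv i (F.pf i ω)) -
          (F.Ao (lv R s) ω - F.gv i (F.pf i ω)) by ring]
        exact abs_sub _ _
      have := mul_le_mul_of_nonneg_right this hq.le
      linarith
    refine H364.fl1_le_of_near (M := M) ?_
    rw [show q2 0 = 1 by unfold q2; norm_num, mul_one, ← mul_sub, abs_mul, abs_of_pos hcp]
    have e4 : cA R δ s * |F.Ao (lv R s) ω' - F.Ao (lv R s) ω| * q2 (R.C.a i) ≤ (M : ℝ) * q2 (R.C.a i) := by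
      calc cA R δ s * |F.Ao (lv R s) ω' - F.Ao (lv R s) ω| * q2 (R.C.a i)
          = cA R δ s * (|F.Ao (lv R s) ω' - F.Ao (lv R s) ω| * q2 (R.C.a i)) := by ring
        _ ≤ cA R δ s * (4 * K * q2 (R.C.rk i)) := mul_le_mul_of_nonneg_left e3 hcp.le
        _ = 4 * K * (cA R δ s * q2 (R.C.rk i)) := by ring
        _ ≤ 4 * K * (2 ^ (δ + R.m) * q2 (R.C.a i)) := mul_le_mul_of_nonneg_left hc1 (by positivity)
        _ ≤ 4 * N0 * (2 ^ (δ + R.m) * q2 (R.C.a i)) := by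
            refine mul_le_mul_of_nonneg_right (by linarith) (by positivity)
        _ = (M : ℝ) * q2 (R.C.a i) := by rw [hM]; push_cast; ring
    exact le_of_mul_le_mul_right e4 hq
  refine (hc_le_log R.Q (AL R F δ s) E (2 * M + 3) (H420.few_fl R.Q h1)).trans ?_
  have e5 : ((2 * M + 3 : ℕ) : ℝ) ≤ (8 * N0 + 3) * 2 ^ (δ + R.m) := by
    rw [hM]
    push_cast
    have : (1 : ℝ) ≤ 2 ^ (δ + R.m) := one_le_pow₀ (by norm_num)
    nlinarith
  refine (Real.log_le_log (by positivity) e5).trans ?_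
  rw [Real.log_mul (by positivity) (by positivity), Real.log_pow]
  push_cast
  linarith

/-- **the curvature letter determines the curvature of the steps of the run** -/
theorem al_AL (h : VD R p F K Vs Xs Cu gd) (hsi : s ≤ i) {k : ℕ} (hik : i ≤ k) (hk : k ≤ R.n + p.J)
    (hl : ∀ e, s ≤ e → e < k → lkR R gd Cu e) (hgs : gd s) (h1 : 1 ≤ lv R s) (h2 : lv R i < lv R k) {κ : ℝ}
    (hao : ∀ ω, 0 < R.Q.w ω → |R.al i ω - F.Ao (lv R i) ω| * q2 (R.C.a i) ≤ κ) (δ : ℕ) {ω : Ω} (hω : 0 < R.Q.w ω) :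
    |R.al i ω - (AL R F δ s ω : ℝ) / cA R δ s| * q2 (R.C.a i) * 2 ^ (R.C.rk i + δ) ≤ κ * 2 ^ (R.C.rk i + δ) + 2 ^ R.m := by
  have hcp := cA_pos R δ s
  have e1 := hao ω hω
  rw [h.ao_run hsi (by omega) (fun e e1 e2 => hl e e1 (by omega)) hω] at e1
  have e2 : |F.Ao (lv R s) ω - (AL R F δ s ω : ℝ) / cA R δ s| * cA R δ s ≤ 1 := by
    have a1 := Int.floor_le (2 ^ 0 * (cA R δ s * F.Ao (lv R s) ω))
    have a2 := Int.lt_floor_add_one (2 ^ 0 * (cA R δ s * F.Ao (lv R s) ω))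
    have e3 : |F.Ao (lv R s) ω - (AL R F δ s ω : ℝ) / cA R δ s| * cA R δ s =
        |F.Ao (lv R s) ω * cA R δ s - (AL R F δ s ω : ℝ)| := by
      rw [← abs_of_pos hcp, ← abs_mul, abs_of_pos hcp, sub_mul, div_mul_cancel₀ _ hcp.ne']
    rw [e3]
    unfold AL fl1
    rw [abs_le]
    rw [pow_zero, one_mul] at a1 a2 ⊢
    constructor <;> linarith
  have hi1 := h.rk_hi hsi hik hk hl hgs h1 h2
  have e4 : q2 (R.C.a i) * 2 ^ (R.C.rk i + δ) ≤ 2 ^ R.m * cA R δ s := by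
    have h3 : (2 : ℝ) ^ (R.C.rk i + δ + R.C.a s) ≤ 2 ^ (R.m + (R.C.rk s + δ) + R.C.a i) :=
      pow_le_pow_right₀ (by norm_num) (by omega)
    have f1 := q2_mul_pow (R.C.a s)
    have f2 := q2_mul_pow (R.C.a i)
    have g1 : q2 (R.C.a i) * 2 ^ (R.C.rk i + δ) = 2 ^ (R.C.rk i + δ + R.C.a s) * (q2 (R.C.a s) * q2 (R.C.a i)) := by
      rw [pow_add _ _ (R.C.a s)]
      calc _ = q2 (R.C.a i) * 2 ^ (R.C.rk i + δ) * (2 ^ R.C.a s * q2 (R.C.a s)) := by rw [f1, mul_one]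
        _ = _ := by ring
    have g2 : 2 ^ R.m * cA R δ s = 2 ^ (R.m + (R.C.rk s + δ) + R.C.a i) * (q2 (R.C.a s) * q2 (R.C.a i)) := by
      unfold cA
      rw [pow_add _ _ (R.C.a i), pow_add _ R.m]
      calc _ = 2 ^ R.m * ((2 : ℝ) ^ (R.C.rk s + δ) * q2 (R.C.a s)) * (2 ^ R.C.a i * q2 (R.C.a i)) := by
            rw [f2, mul_one]
        _ = _ := by ring
    rw [g1, g2]
    refine mul_le_mul_of_nonneg_right h3 ?_
    have := q2_pos (R.C.a s)
    have := q2_pos (R.C.a i)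
    positivity
  have e5 : |R.al i ω - (AL R F δ s ω : ℝ) / cA R δ s| ≤ |R.al i ω - F.Ao (lv R s) ω| +
      |F.Ao (lv R s) ω - (AL R F δ s ω : ℝ) / cA R δ s| := abs_sub_le _ _ _
  have hq := q2_pos (R.C.a i)
  have h4 : (0 : ℝ) < 2 ^ (R.C.rk i + δ) := by positivity
  have e6 : |F.Ao (lv R s) ω - (AL R F δ s ω : ℝ) / cA R δ s| * (q2 (R.C.a i) * 2 ^ (R.C.rk i + δ)) ≤ 2 ^ R.m := by
    calc _ ≤ |F.Ao (lv R s) ω - (AL R F δ s ω : ℝ) / cA R δ s| * (2 ^ R.m * cA R δ s) :=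
          mul_le_mul_of_nonneg_left e4 (abs_nonneg _)
      _ = 2 ^ R.m * (|F.Ao (lv R s) ω - (AL R F δ s ω : ℝ) / cA R δ s| * cA R δ s) := by ring
      _ ≤ 2 ^ R.m * 1 := mul_le_mul_of_nonneg_left e2 (by positivity)
      _ = _ := mul_one _
  calc _ ≤ (|R.al i ω - F.Ao (lv R s) ω| + |F.Ao (lv R s) ω - (AL R F δ s ω : ℝ) / cA R δ s|) * q2 (R.C.a i) *
        2 ^ (R.C.rk i + δ) := by
        refine mul_le_mul_of_nonneg_right (mul_le_mul_of_nonneg_right e5 hq.le) h4.le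
    _ = |R.al i ω - F.Ao (lv R s) ω| * q2 (R.C.a i) * 2 ^ (R.C.rk i + δ) +
        |F.Ao (lv R s) ω - (AL R F δ s ω : ℝ) / cA R δ s| * (q2 (R.C.a i) * 2 ^ (R.C.rk i + δ)) := by ring
    _ ≤ _ := add_le_add (mul_le_mul_of_nonneg_right e1 h4.le) e6

end letter

/-! ### the cells `mtr`, kappa regime -/

section cells

/-- the young levels which are not exceptional, kappa regime -/
def gdK (R : Run Ω τ υ) (Vs Xs : Finset ℕ) (i : ℕ) : Prop :=
  lv R i ∈ Vs ∧ lv R i ∉ Xs ∧ R.m * R.b1 + R.C.rk i < R.C.rf i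

lemma mem_IdK {R : Run Ω τ υ} {Vs Xs : Finset ℕ} {i : ℕ} : i ∈ IdK R Vs Xs ↔ (1 ≤ i ∧ i ≤ R.n) ∧ gdK R Vs Xs i := by
  unfold IdK gdK
  rw [Finset.mem_filter, Finset.mem_Icc]

lemma nb_mono {n : ℕ} {z ε ε' : ℝ} (h : Nb n z ε) (he : ε ≤ ε') : Nb n z ε' := by
  by_contra h'
  obtain ⟨y, h1, h2, h3⟩ := h
  have h0 : 0 ≤ ε := by linarith
  refine h3 (Nb.eq h' ?_ ?_)
  · rw [abs_le]
    constructor <;> linarith
  · rw [abs_le]
    constructor <;> linarith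

variable {D : Mtd Ω π} {b k : ℕ} {ω : Ω}

omit [Fintype Ω] in
/-- the exceptional event of the frozen path at its index -/
lemma fz_Bad (h : j ≤ k) {c c' : ℝ} (hc : c ≤ c') (hB : (D.p1 k).Bad c 0 b ω) : (D.fz j k).Bad c' k b ω := by
  have hs : (D.fz j k).s k ω = (D.p1 k).s 0 ω := D.fz_s h ω
  have hF := D.fz_Fk h ω
  have hR : (D.fz j k).R k b = (D.p1 k).R 0 b := by rw [D.fz_R h, D.p1_R]
  have hb := D.fz_bs h b
  have ha : (D.fz j k).a k = (D.p1 k).a 0 := D.fz_a h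
  have hsl : (D.fz j k).sl k b ω = (D.p1 k).sl 0 b ω := by
    unfold Pth.sl
    rw [hF, hb]
    rfl
  have hFr : (D.fz j k).Fr k b ((D.fz j k).R k b - 3 * (D.fz j k).μ) ω =
      (D.p1 k).Fr 0 b ((D.p1 k).R 0 b - 3 * (D.p1 k).μ) ω := by
    unfold Pth.Fr
    rw [hF, hb, hsl, hR]
    rfl
  have hva : (D.fz j k).va k b ω = (D.p1 k).va 0 b ω := by
    unfold Pth.va
    rw [hsl, hs, hFr]
    rfl
  have hlv : (D.fz j k).lv k b = (D.p1 k).lv 0 b := by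
    unfold Pth.lv
    rw [ha, hR]
    rfl
  obtain ⟨x, hx⟩ := hB
  refine ⟨x, ?_⟩
  rw [hva, hlv]
  refine nb_mono hx (mul_le_mul_of_nonneg_right hc (q2_pos _).le)

omit [Fintype Ω] in
lemma ind0 (p : Prop) : 0 ≤ Law.ind p := by
  by_cases h : p
  · rw [Law.ind_of h]; norm_num
  · rw [Law.ind_not h]

lemma prE_or (P : Law Ω) {E F G : Ω → Prop} (h : ∀ ω, 0 < P.w ω → E ω → F ω ∨ G ω) : prE P E ≤ prE P F + prE P G := by
  rw [← H300.ex_ind_eq, ← H300.ex_ind_eq, ← H300.ex_ind_eq, ← P.ex_add]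
  refine P.ex_mono fun ω hω => ?_
  by_cases hE : E ω
  · rw [Law.ind_of hE]
    rcases h ω hω hE with h1 | h1
    · rw [Law.ind_of h1]
      have := ind0 (G ω)
      linarith
    · rw [Law.ind_of h1]
      have := ind0 (F ω)
      linarith
  · rw [Law.ind_not hE]
    have := ind0 (G ω)
    have := ind0 (F ω)
    linarith

/-- probability of the exceptional events of the cell `mtr i b` -/
noncomputable def exK (R : Run Ω τ υ) (F : Pf R π) (μ : ℕ) (o : Fin 7 → ℝ) (o' : ℕ → ℝ) (K' : ℝ) (i : ℕ) : ℝ :=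
  prE R.Q (((mt R F μ o o').fz i i).Bad K' i (R.m * R.b1)) +
    (prE R.Q (fun ω => Nb (R.C.rk i - μ / 2) (kaL R i ω + o' 0) (K' * q2 (R.C.rk i))) +
      prE R.Q (fun ω => Nb (R.C.rk i - μ / 2) (uL R o i ω + o' 1) (K' * q2 (R.C.rk i))))

lemma exK_nonneg (R : Run Ω τ υ) (F : Pf R π) (μ : ℕ) (o : Fin 7 → ℝ) (o' : ℕ → ℝ) (K' : ℝ) (i : ℕ) :
    0 ≤ exK R F μ o o' K' i := add_nonneg (prE_nonneg _ _) (add_nonneg (prE_nonneg _ _) (prE_nonneg _ _))

variable {μ : ℕ} {o : Fin 7 → ℝ} {o' : ℕ → ℝ} {K₁ K' : ℝ} {I : Set ℕ}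

lemma BdI_le (h1 : 1 ≤ K₁) (hK' : 640 * (8 * K₁) ^ 7 ≤ K') (hij : i ≤ j) :
    prE R.Q (H122.BdI (mt R F μ o o') K₁ i j (R.m * R.b1) hij) ≤ exK R F μ o o' K' i := by
  have k7 : K₁ ≤ K₁ ^ 7 := by
    calc K₁ = K₁ ^ 1 := (pow_one _).symm
      _ ≤ K₁ ^ 7 := pow_le_pow_right₀ h1 (by norm_num)
  have hk : 19 * K₁ ≤ K' := by
    have e : 640 * (8 * K₁) ^ 7 = 640 * 8 ^ 7 * K₁ ^ 7 := by ring
    rw [e] at hK'
    nlinarith
  have q := q2_pos (R.C.rk i)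
  unfold exK
  refine (prE_or R.Q (F := ((mt R F μ o o').fz i i).Bad K' i (R.m * R.b1)) (G := fun ω =>
    Nb (R.C.rk i - μ / 2) (kaL R i ω + o' 0) (K' * q2 (R.C.rk i)) ∨
      Nb (R.C.rk i - μ / 2) (uL R o i ω + o' 1) (K' * q2 (R.C.rk i))) fun ω _ h => ?_).trans
    (add_le_add le_rfl (prE_or R.Q fun ω _ h => h))
  rcases h with h | h | h
  · exact Or.inl (fz_Bad (D := mt R F μ o o') le_rfl hK' h)
  · refine Or.inr (Or.inl ?_)
    exact nb_mono (n := R.C.rk i - μ / 2) h (by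
      show 3 * K₁ * q2 (R.C.rk i) ≤ K' * q2 (R.C.rk i)
      exact mul_le_mul_of_nonneg_right (by linarith) q.le)
  · refine Or.inr (Or.inr ?_)
    exact nb_mono (n := R.C.rk i - μ / 2) h (by
      show 19 * K₁ * q2 (R.C.rk i) ≤ K' * q2 (R.C.rk i)
      exact mul_le_mul_of_nonneg_right hk q.le)

/-- defect of the nestedness at the index `i` -/
noncomputable def nuK (R : Run Ω τ υ) (F : Pf R π) (μ : ℕ) (o : Fin 7 → ℝ) (o' : ℕ → ℝ) (K₁ K' : ℝ) (M i : ℕ) : ℝ :=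
  H122.cI K₁ M * Real.sqrt (exK R F μ o o' K' i)

lemma cI_nonneg (K : ℝ) (M : ℕ) : 0 ≤ H122.cI K M := by
  unfold H122.cI
  have h1 : 0 ≤ Real.log ((2 * M + 3 : ℕ) : ℝ) := Real.log_natCast_nonneg _
  have h2 : 0 ≤ Real.log (2 * H300.MK (8 * K) + 3) := Real.log_nonneg (by
    have : (0 : ℝ) ≤ H300.MK (8 * K) := Nat.cast_nonneg _
    linarith)
  linarith

lemma nuK_nonneg (R : Run Ω τ υ) (F : Pf R π) (μ : ℕ) (o : Fin 7 → ℝ) (o' : ℕ → ℝ) (K₁ K' : ℝ) (M i : ℕ) :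
    0 ≤ nuK R F μ o o' K₁ K' M i := mul_nonneg (cI_nonneg _ _) (Real.sqrt_nonneg _)

/-- the relative thickness, kappa regime -/
lemma R_kap {b : ℕ} (h : b + R.C.rk i < R.C.rf i) : (mt R F μ o o').R i b = R.C.rk i - μ / 2 + b := by
  show min (R.C.rk i - μ / 2 + b) (R.C.rf i) = _
  exact min_eq_left (by omega)

/-- **the cells are near-nested along a run** -/
theorem near_mt (h : VD R p F K Vs Xs Cu (gdK R Vs Xs)) (h1 : 1 ≤ K₁) (hK' : 640 * (8 * K₁) ^ 7 ≤ K')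
    {M : ℕ} (hM : 641 * K₁ ^ 2 ≤ M) (hr : μ ≤ R.r0) (hb : 8 * μ ≤ R.m * R.b1)
    (hI : ∀ i ≤ R.n, gdK R Vs Xs i → i ∈ I) (hy : ∀ ω, 0 < R.Q.w ω → (mt R F μ o o').Hy K₁ I ω)
    (hij : i ≤ j) (hj : j ≤ R.n) (hl : ∀ e, i ≤ e → e < j → lkR R (gdK R Vs Xs) Cu e) (hg : gdK R Vs Xs i)
    (ha : R.C.a i + (2 * μ + R.m) ≤ R.C.a j) :
    hc R.Q ((mt R F μ o o').mtr i (R.m * R.b1)) ((mt R F μ o o').mtr j (R.m * R.b1)) ≤ nuK R F μ o o' K₁ K' M i := by
  have hlo := h.rk_lo hij (by omega) hl hg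
  have hgj : gdK R Vs Xs j := VD.gd_of hl hg hij le_rfl
  have hr0 : R.r0 ≤ R.C.rk i := by
    have := R.C.hk (Nat.zero_le i)
    rw [h.pth.k0] at this
    exact this
  have hRi := R_kap (F := F) (μ := μ) (o := o) (o' := o') hg.2.2
  have hRj := R_kap (F := F) (μ := μ) (o := o) (o' := o') hgj.2.2
  have H : H122.Dn (mt R F μ o o') K₁ I i j (R.m * R.b1) := by
    refine ⟨h1, hI i (by omega) hg, hI j hj hgj, hij, ?_, ?_, ?_, hb, ?_⟩
    · show R.C.a i + 2 * μ ≤ R.C.a j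
      omega
    · show R.C.rk i + μ / 2 ≤ R.C.rk j
      omega
    · rw [hRi, hRj]
      show R.C.rk i - μ / 2 + R.m * R.b1 + μ ≤ R.C.rk j - μ / 2 + R.m * R.b1
      omega
    · rw [hRi]
      show 8 * μ ≤ _
      omega
  have e1 : hc R.Q ((mt R F μ o o').mtr i (R.m * R.b1)) ((mt R F μ o o').mtr j (R.m * R.b1)) ≤
      hc R.Q ((mt R F μ o o').mtr i (R.m * R.b1))
        (fun ω => ((mt R F μ o o').pf i ω, (mt R F μ o o').mtr j (R.m * R.b1) ω)) := by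
    refine hc_mono_right R.Q _ ?_
    intro ω ω' p1 p2 e
    have e2 : F.pf j ω = F.pf j ω' := congrArg (fun x : Lt π × Pth.Dg => x.1.2.1) e
    exact Prod.ext (h.pf_le hij (by omega) ω ω' p1 p2 e2) e
  refine e1.trans ((H122.hc_mtr_down R.Q H hy hM).trans ?_)
  exact mul_le_mul_of_nonneg_left (Real.sqrt_le_sqrt (BdI_le h1 hK' hij)) (cI_nonneg _ _)

/-- **the letters of the record at a step of the kappa regime** -/
theorem mi_LDk {S : Type*} (X : Ω → S) {b k i : ℕ} (hki : k ≤ i) (hk : b + R.C.rk k < R.C.rf k) :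
    mi R.Q X ((mt R F μ o o').mtr i b) (fun ω => (LDk ((mt R F μ o o').fz k k) b k ω,
      LTh ((mt R F μ o o').fz k k) b i ω)) ≤ mi R.Q X ((mt R F μ o o').mtr i b) ((mt R F μ o o').mtr k b) := by
  set D := mt R F μ o o' with hD
  have c1 : ¬ (D.fz k k).rf k ≤ b + (D.fz k k).rk k := by
    rw [D.fz_rf le_rfl, D.fz_rk le_rfl le_rfl]
    show ¬ R.C.rf k ≤ b + (R.C.rk k - μ / 2)
    omega
  have c2 : ¬ (D.fz k k).rf i ≤ b + (D.fz k k).rk i := by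
    rw [D.fz_rf hki, D.fz_rk hki hki]
    have := R.C.hf hki
    show ¬ R.C.rf i ≤ b + (R.C.rk k - μ / 2)
    omega
  have d1 : ∀ ω, LDk (D.fz k k) b k ω = ((D.fz k k).cell k b ω, 0) := fun ω => by
    unfold LDk
    rw [if_neg c1]
  have d2 : ∀ ω, LTh (D.fz k k) b i ω = ((D.fz k k).T i ω, 0) := fun ω => by
    unfold LTh
    rw [if_neg c2]
  have e1 : mi R.Q X (D.mtr i b) (fun ω => (LDk (D.fz k k) b k ω, LTh (D.fz k k) b i ω)) =
      mi R.Q X (D.mtr i b) (fun ω => ((D.fz k k).T i ω, D.mtr k b ω)) := by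
    refine mi_congr_cond R.Q X _ ?_ ?_
    · intro ω ω' _ _ e
      simp only [Prod.mk.injEq] at e
      simp only [d1, d2, Prod.mk.injEq]
      exact ⟨⟨(D.fz_cell_iff le_rfl b ω ω').2 e.2, trivial⟩, e.1, trivial⟩
    · intro ω ω' _ _ e
      simp only [d1, d2, Prod.mk.injEq] at e
      simp only [Prod.mk.injEq]
      exact ⟨e.2.1, (D.fz_cell_iff le_rfl b ω ω').1 e.1.1⟩
  rw [e1, mi_symm R.Q X, mi_symm R.Q X]
  refine mi_cond_le R.Q X (D.mtr k b) ?_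
  intro ω ω' _ _ e
  simp only [Prod.mk.injEq] at e
  have t1 : fl1 (D.a i) (D.t ω) = fl1 (D.a i) (D.t ω') := congrArg (fun x : Lt π × Pth.Dg => x.1.1) e.1
  have t2 : D.lt k ω = D.lt k ω' := congrArg Prod.fst e.2
  show (D.lt k ω, fl1 (D.a (max i k)) (D.t ω)) = (D.lt k ω', fl1 (D.a (max i k)) (D.t ω'))
  rw [max_eq_left hki, t1, t2]

end cells

/-! ### the sums -/

section sums

variable {μ : ℕ} {o : Fin 7 → ℝ} {o' : ℕ → ℝ} {K₁ K' : ℝ} {I : Set ℕ}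

/-- **the pairs** : indices `u x < v x` of the composition, `i1` in the same run -/
structure Prk (R : Run Ω τ υ) (gd : ℕ → Prop) (Cu : Finset ℕ) (f : ℕ → ℕ) (Nz K1 L N : ℕ) {ι : Type*} (G : Finset ι)
    (u v : ι → ℕ) : Prop where
  g : ∀ x ∈ G, gd (f (u x))
  lt : ∀ x ∈ G, u x < v x
  a : ∀ x ∈ G, R.C.a (f (u x)) + K1 ≤ R.C.a (f (v x))
  ex : ∀ x ∈ G, ∃ i1 ≤ Nz, v x < i1 ∧ (∀ e, f (u x) ≤ e → e < f i1 → lkR R gd Cu e) ∧
    R.C.a (f (v x)) + K1 ≤ R.C.a (f i1) ∧ i1 ≤ u x + L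
  N : ∀ j, (G.filter fun x => u x = j).card ≤ N

omit [Fintype Ω] in
lemma lkR_sub {Ω : Type} [Fintype Ω] {τ υ : Type} {R : Run Ω τ υ} {gd : ℕ → Prop} {Cu : Finset ℕ} {i j k : ℕ}
    (h : ∀ e, i ≤ e → e < k → lkR R gd Cu e) (hj : j ≤ k) : ∀ e, i ≤ e → e < j → lkR R gd Cu e :=
  fun e h1 h2 => h e h1 (by omega)

/-- **the sum of the informations, one variable per run** -/
theorem f1K (h : VD R p F K Vs Xs Cu (gdK R Vs Xs)) (h1 : 1 ≤ K₁) (hK' : 640 * (8 * K₁) ^ 7 ≤ K')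
    {M : ℕ} (hM : 641 * K₁ ^ 2 ≤ M) (hr : μ ≤ R.r0) (hb : 8 * μ ≤ R.m * R.b1)
    (hI : ∀ i ≤ R.n, gdK R Vs Xs i → i ∈ I) (hy : ∀ ω, 0 < R.Q.w ω → (mt R F μ o o').Hy K₁ I ω)
    {f : ℕ → ℕ} (hf : Monotone f) {Nz K1 L N : ℕ} (hfs : ∀ j < Nz, f j < f (j + 1)) (hfn : f Nz ≤ R.n)
    (hK1 : 2 * μ + R.m ≤ K1) {ι : Type*} {G : Finset ι} {u v : ι → ℕ} (hG : Prk R (gdK R Vs Xs) Cu f Nz K1 L N G u v)
    {S : Type*} (X : ℕ → Ω → S) {H : ℝ} (hH0 : 0 ≤ H)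
    (hX : ∀ s i, s ≤ i → i ≤ R.n → (∀ e, s ≤ e → e < i → lkR R (gdK R Vs Xs) Cu e) → gdK R Vs Xs s →
      hc R.Q (X s) ((mt R F μ o o').mtr i (R.m * R.b1)) ≤ H) :
    ∑ x ∈ G, mi R.Q (X (rs (lkR R (gdK R Vs Xs) Cu) (f (u x)))) ((mt R F μ o o').mtr (f (v x)) (R.m * R.b1))
        (fun ω => (LDk ((mt R F μ o o').fz (f (u x)) (f (u x))) (R.m * R.b1) (f (u x)) ω,
          LTh ((mt R F μ o o').fz (f (u x)) (f (u x))) (R.m * R.b1) (f (v x)) ω)) ≤
      ((Vs.filter fun z => z + 1 ∉ Vs).card + Xs.card + Cu.card + 1 : ℕ) * (N * (L * H)) +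
        ∑ x ∈ G, (nuK R F μ o o' K₁ K' M (f (u x)) + nuK R F μ o o' K₁ K' M (f (v x))) := by
  classical
  set lk := lkR R (gdK R Vs Xs) Cu with hlk
  set D := mt R F μ o o' with hD
  set b := R.m * R.b1 with hbd
  have hm : 1 ≤ R.m := h.pth.m1
  have fN : ∀ j ≤ Nz, f j ≤ R.n := fun j hj => (hf hj).trans hfn
  have main := tele_runsI R.Q (lk := lkF lk f) (gd := fun j => gdK R Vs Xs (f j)) (fun w => X (rs lk (f w)))
    (fun j => D.mtr (f j) b) (fun j => R.C.a (f j)) (fun j => nuK R F μ o o' K₁ K' M (f j)) Nz K1 L N (H := H)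
    (by omega) (fun i j hij _ => R.C.ha (hf hij))
    (fun e he hl => by
      have h0 := hfs e he
      have h2 := (hl (f e) le_rfl h0).1
      exact ⟨h2, VD.gd_of hl h2 h0.le le_rfl⟩)
    (fun i _ => nuK_nonneg R F μ o o' K₁ K' M (f i))
    (fun i j hij hj g1 _ hl ha => near_mt h h1 hK' hM hr hb hI hy (hf hij) (fN j hj)
      (lk_of_lkF hij hl) g1 (by have := ha; omega))
    (fun i hi g => by
      have e1 : rs lk (f (rs (lkF lk f) i)) = rs lk (f i) := rs_lkF hf i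
      simp only [e1]
      have hl : ∀ e, rs lk (f i) ≤ e → e < f i → lk e := fun e e1 e2 => lk_of (lk := lk) e1 e2
      refine hX _ (f i) (rs_le lk (f i)) (fN i hi) hl ?_
      rcases (rs_le lk (f i)).eq_or_lt with h2 | h2
      · rw [h2]; exact g
      · exact (hl _ le_rfl h2).1)
    G u v
    (fun x hx => by
      obtain ⟨i1, a1, a2, a3, a4, a5⟩ := hG.ex x hx
      exact ⟨hG.lt x hx, hG.a x hx, i1, a1, a2, lkF_of hf a3, a4, a5⟩)
    hG.N
  have e1 : ∀ x ∈ G, rs lk (f (rs (lkF lk f) (u x))) = rs lk (f (u x)) := fun x _ => rs_lkF hf (u x)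
  refine (Finset.sum_le_sum fun x hx => ?_).trans (main.trans (add_le_add ?_ le_rfl))
  · rw [e1 x hx]
    exact mi_LDk _ (hf (hG.lt x hx).le) (hG.g x hx).2.2
  · refine mul_le_mul_of_nonneg_right ?_ (by positivity)
    have c1 : (G.image fun x => rs (lkF lk f) (u x)) = (G.image u).image (rs (lkF lk f)) := by
      rw [Finset.image_image]
      rfl
    have c2 := card_lkF (lk := lk) hf (G.image u)
    have c3 := h.card_lkR ((G.image u).image f) (fun i hi => by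
      obtain ⟨j, hj, rfl⟩ := Finset.mem_image.1 hi
      obtain ⟨x, hx, rfl⟩ := Finset.mem_image.1 hj
      obtain ⟨i1, a1, a2, -⟩ := hG.ex x hx
      have := hG.lt x hx
      exact ⟨fN _ (by omega), hG.g x hx⟩)
    rw [c1]
    exact_mod_cast c2.trans c3

end sums

/-! ### the entropies of the letters of a run -/

section ent

variable {μ : ℕ} {o : Fin 7 → ℝ} {o' : ℕ → ℝ}

/-- the digits of `v` -/
noncomputable def vL (R : Run Ω τ υ) (pp : ℕ) (ω : Ω) : ℤ := fl1 (R.m * R.b1 + pp) (R.C.l ω).v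

/-- the digits of `v` and the curvature letter of the run with the start `s` -/
noncomputable def vA (R : Run Ω τ υ) (F : Pf R π) (pp δ s : ℕ) (ω : Ω) : ℤ × ℤ := (vL R pp ω, AL R F δ s ω)

lemma mtr_v (P : Law Ω) (D : Mtd Ω π) (i b : ℕ) : Fn P (fun ω => fl1 b (D.l ω).v) (D.mtr i b) :=
  fun _ _ _ _ e => congrArg (fun x : Lt π × Pth.Dg => x.2.1) e

lemma mtr_pf (P : Law Ω) (D : Mtd Ω π) (i b : ℕ) : Fn P (D.pf i) (D.mtr i b) :=
  fun _ _ _ _ e => congrArg (fun x : Lt π × Pth.Dg => x.1.2.1) e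

theorem hc_vL (F : Pf R π) (pp i : ℕ) : hc R.Q (vL R pp) ((mt R F μ o o').mtr i (R.m * R.b1)) ≤ pp * Real.log 2 :=
  H420.hc_fl_finer R.Q (mtr_v R.Q (mt R F μ o o') i (R.m * R.b1))

theorem hc_vA (h : VD R p F K Vs Xs Cu gd) (hK : 0 ≤ K) (hsi : s ≤ i) (hi : i ≤ R.n + p.J)
    (hl : ∀ e, s ≤ e → e < i → lkR R gd Cu e) (hgs : gd s) (pp δ : ℕ) {N0 : ℕ} (hN : K ≤ N0) :
    hc R.Q (vA R F pp δ s) ((mt R F μ o o').mtr i (R.m * R.b1)) ≤
      pp * Real.log 2 + ((δ + R.m) * Real.log 2 + Real.log (8 * N0 + 3)) :=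
  (H420.hc_pair_le R.Q _ _ _).trans (add_le_add (hc_vL F pp i)
    (hc_AL h hK hsi hi hl hgs (mtr_pf R.Q (mt R F μ o o') i (R.m * R.b1)) δ hN))

end ent

/-! ### the record -/

section rec

variable {B bS bV μ : ℕ} {o : Fin 7 → ℝ} {o' : ℕ → ℝ} {K₁ K' : ℝ}

/-- **from the field `f2` of the record** -/
theorem VD.of_F2 (hP : R.Path p) (hB : 1 ≤ B) (hF : F2 R p K B bS bV F Vs Xs) (hK : 0 ≤ K) :
    ∃ Cu : Finset ℕ, (R.m : ℝ) * ((Vs.filter fun z => z + 1 ∉ Vs).card + Xs.card + Cu.card + 1 : ℕ) ≤ 3 * (R.h / B) + R.m ∧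
      VD R p F K Vs Xs Cu (gdK R Vs Xs) := by
  obtain ⟨Cu, c1, c2⟩ := hF.cut
  have hm : 1 ≤ R.m := hP.m1
  refine ⟨Cu, ?_, hP, fun i hi => ⟨hi.1, hi.2.1⟩, ?_, hF.diag, hF.pfH, hF.gvA, ?_, c2⟩
  · push_cast
    have h1 := hF.runs
    have h2 := hF.xs
    linarith
  · intro e he hg h1 h2
    refine ⟨h1, h2, ?_⟩
    rcases hF.reg (e + 1) (by omega) (by omega) h1 h2 with h3 | h3
    · have h4 := hF.loS
      have h5 := hF.loV
      have h6 : R.m * (R.b1 + B) = R.m * R.b1 + R.m * B := Nat.mul_add _ _ _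
      have h7 : 1 ≤ R.m * B := Nat.mul_pos hm hB
      omega
    · have h4 := F.l0 (e + 1)
      have h5 := hg.2.2
      have h6 := R.C.hf (Nat.le_succ e)
      have h7 : R.m * 1 ≤ R.m * B := Nat.mul_le_mul_left _ hB
      have h8 : R.C.rk (e + 1) ≤ R.C.rk e + R.m := by
        rcases hP.stp e (by omega) with h | h | h <;> omega
      simp only [Nat.succ_eq_add_one] at h6
      omega
  · intro k hk hv ω hω
    refine (hF.aoA k hk hv ω hω).trans (mul_le_mul_of_nonneg_left (q2_le (by omega)) hK)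

/-- **sum of the exceptional events** -/
theorem sum_exK (hF : F2o R p B bS bV F Vs Xs μ K' o o') :
    ∑ i ∈ IdK R Vs Xs, exK R F μ o o' K' i ≤ 2 * (K' ^ 2 * (R.n + p.J + 1) * q2 (μ / 4)) := by
  have h1 := hF.offK 0 (Nat.zero_le _)
  have h2 := hF.offL
  have e1 : ∑ i ∈ IdK R Vs Xs, prE R.Q (((mt R F μ o o').fz i i).Bad K' i (R.m * R.b1)) ≤
      K' ^ 2 * (R.n + p.J + 1) * q2 (μ / 4) := by
    refine (Finset.sum_le_sum fun i _ => ?_).trans (h1.trans (le_of_eq (by push_cast; ring)))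
    have a1 : prE R.Q (((mt R F μ o o').fz i i).Bad K' i (R.m * R.b1)) ≤
        exc R.Q ((mt R F μ o o').fz i i) K' i (R.m * R.b1) := by
      unfold exc
      have := prE_nonneg R.Q (H420.BadS ((mt R F μ o o').fz i i) K' i (R.m * R.b1))
      have := prE_nonneg R.Q (H300.BadR ((mt R F μ o o').fz i i) K' i (R.m * R.b1))
      linarith
    have a2 : ∀ c k b, 0 ≤ exc R.Q ((mt R F μ o o').fz c c) K' k b := fun c k b =>
      add_nonneg (add_nonneg (prE_nonneg _ _) (prE_nonneg _ _)) (prE_nonneg _ _)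
    have a3 := a2 i i bV
    have a4 : 0 ≤ ∑ x ∈ At' R p B 0 i, exc R.Q ((mt R F μ o o').fz i i) K' x (R.m * R.b1) :=
      Finset.sum_nonneg fun x _ => a2 i x _
    linarith
  have e2 : ∑ i ∈ IdK R Vs Xs, (prE R.Q (fun ω => Nb (R.C.rk i - μ / 2) (kaL R i ω + o' 0) (K' * q2 (R.C.rk i))) +
      prE R.Q (fun ω => Nb (R.C.rk i - μ / 2) (uL R o i ω + o' 1) (K' * q2 (R.C.rk i)))) ≤
      K' ^ 2 * (R.n + p.J + 1) * q2 (μ / 4) := by
    refine (Finset.sum_le_sum_of_subset_of_nonneg ?_ ?_).trans h2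
    · intro i hi
      rw [mem_IdK] at hi
      rw [Finset.mem_range]
      omega
    · intro i _ _
      exact add_nonneg (prE_nonneg _ _) (prE_nonneg _ _)
  unfold exK
  rw [Finset.sum_add_distrib]
  linarith

/-- sum of the defects over the indices -/
theorem sum_nuK (hF : F2o R p B bS bV F Vs Xs μ K' o o') (hK' : 0 ≤ K') (M : ℕ) :
    ∑ i ∈ IdK R Vs Xs, nuK R F μ o o' K₁ K' M i ≤
      H122.cI K₁ M * (2 * K' * (R.n + p.J + 1) * q2 (μ / 8)) := by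
  have h1 := sum_exK hF
  have h2 := H931.sum_sqrt_le (IdK R Vs Xs) (fun i => exK R F μ o o' K' i) fun i => exK_nonneg R F μ o o' K' i
  have h3 : ((IdK R Vs Xs).card : ℝ) ≤ R.n + p.J + 1 := by
    have : (IdK R Vs Xs).card ≤ R.n := by
      unfold IdK
      refine (Finset.card_filter_le _ _).trans ?_
      rw [Nat.card_Icc]
      omega
    have h4 : ((IdK R Vs Xs).card : ℝ) ≤ R.n := by exact_mod_cast this
    have h5 : (0 : ℝ) ≤ p.J := Nat.cast_nonneg _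
    linarith
  have q4 : q2 (μ / 4) ≤ q2 (μ / 8) ^ 2 := by
    rw [pow_two, ← q2_add]
    exact q2_le (by omega)
  have n0 : (0 : ℝ) ≤ R.n + p.J + 1 := by positivity
  have q8 := q2_pos (μ / 8)
  have h6 : Real.sqrt ((IdK R Vs Xs).card : ℝ) * Real.sqrt (∑ i ∈ IdK R Vs Xs, exK R F μ o o' K' i) ≤
      2 * K' * (R.n + p.J + 1) * q2 (μ / 8) := by
    rw [← Real.sqrt_mul (Nat.cast_nonneg _)]
    refine Real.sqrt_le_iff.2 ⟨by positivity, ?_⟩
    have a1 : ((IdK R Vs Xs).card : ℝ) * ∑ i ∈ IdK R Vs Xs, exK R F μ o o' K' i ≤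
        (R.n + p.J + 1) * (2 * (K' ^ 2 * (R.n + p.J + 1) * q2 (μ / 8) ^ 2)) := by
      refine mul_le_mul h3 (h1.trans ?_) (Finset.sum_nonneg fun i _ => exK_nonneg R F μ o o' K' i) n0
      have : K' ^ 2 * (R.n + p.J + 1) * q2 (μ / 4) ≤ K' ^ 2 * (R.n + p.J + 1) * q2 (μ / 8) ^ 2 :=
        mul_le_mul_of_nonneg_left q4 (by positivity)
      linarith
    refine a1.trans ?_
    have : 0 ≤ (K' * (R.n + p.J + 1) * q2 (μ / 8)) ^ 2 := sq_nonneg _
    nlinarith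
  unfold nuK
  rw [← Finset.mul_sum]
  exact mul_le_mul_of_nonneg_left (h2.trans h6) (cI_nonneg _ _)

/-- **the sum of the defects over the pairs** -/
theorem sum_nuK2 (hP : R.Path p) (hF : F2o R p B bS bV F Vs Xs μ K' o o') (hK' : 0 ≤ K') (M : ℕ) {f : ℕ → ℕ} (hf : Monotone f)
    {Nz K1 L N N2 : ℕ} (hfs : ∀ j < Nz, f j < f (j + 1)) (hfn : f Nz ≤ R.n) {ι : Type*} {G : Finset ι} {u v : ι → ℕ}
    (hG : Prk R (gdK R Vs Xs) Cu f Nz K1 L N G u v) (hN2 : ∀ j, (G.filter fun x => v x = j).card ≤ N2) :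
    ∑ x ∈ G, (nuK R F μ o o' K₁ K' M (f (u x)) + nuK R F μ o o' K₁ K' M (f (v x))) ≤
      (N + N2 : ℕ) * (H122.cI K₁ M * (2 * K' * (R.n + p.J + 1) * q2 (μ / 8))) := by
  classical
  have h0 := sum_nuK (K₁ := K₁) hF hK' M
  have finj : ∀ x y, x ≤ Nz → y ≤ Nz → f x = f y → x = y := by
    have key : ∀ x y, x < y → y ≤ Nz → f x < f y := fun x y h1 h2 => (hfs x (by omega)).trans_le (hf h1)
    intro x y hx hy e
    rcases Nat.lt_trichotomy x y with h | h | h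
    · have := key x y h hy; omega
    · exact h
    · have := key y x h hx; omega
  have inId : ∀ i, i ≤ R.n → gdK R Vs Xs i → i ∈ IdK R Vs Xs := by
    intro i hi hg
    refine mem_IdK.2 ⟨⟨?_, hi⟩, hg⟩
    rcases Nat.eq_zero_or_pos i with h | h
    · have h1 := hg.2.2
      rw [h, hP.f0, hP.k0] at h1
      omega
    · exact h
  have gen : ∀ (w : ι → ℕ) (n' : ℕ), (∀ x ∈ G, w x ≤ Nz ∧ gdK R Vs Xs (f (w x))) →
      (∀ j, (G.filter fun x => w x = j).card ≤ n') →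
      ∑ x ∈ G, nuK R F μ o o' K₁ K' M (f (w x)) ≤ n' * ∑ i ∈ IdK R Vs Xs, nuK R F μ o o' K₁ K' M i := by
    intro w n' hw hn'
    have e1 : ∑ x ∈ G, nuK R F μ o o' K₁ K' M (f (w x)) =
        ∑ i ∈ IdK R Vs Xs, ∑ x ∈ G with f (w x) = i, nuK R F μ o o' K₁ K' M (f (w x)) :=
      (Finset.sum_fiberwise_of_maps_to (fun x hx => inId _ ((hf (hw x hx).1).trans hfn) (hw x hx).2) _).symm
    rw [e1, Finset.mul_sum]
    refine Finset.sum_le_sum fun i _ => ?_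
    have e2 : ∑ x ∈ G with f (w x) = i, nuK R F μ o o' K₁ K' M (f (w x)) =
        ∑ x ∈ G with f (w x) = i, nuK R F μ o o' K₁ K' M i :=
      Finset.sum_congr rfl fun x hx => by rw [(Finset.mem_filter.1 hx).2]
    rw [e2, Finset.sum_const, nsmul_eq_mul]
    refine mul_le_mul_of_nonneg_right ?_ (nuK_nonneg R F μ o o' K₁ K' M i)
    rcases (G.filter fun x => f (w x) = i).eq_empty_or_nonempty with h | ⟨x0, hx0⟩
    · rw [h]; simp
    · obtain ⟨g1, g2⟩ := Finset.mem_filter.1 hx0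
      have e3 : (G.filter fun x => f (w x) = i) ⊆ G.filter fun x => w x = w x0 := by
        intro x hx
        obtain ⟨g3, g4⟩ := Finset.mem_filter.1 hx
        exact Finset.mem_filter.2 ⟨g3, finj _ _ (hw x g3).1 (hw x0 g1).1 (by rw [g4, g2])⟩
      exact_mod_cast (Finset.card_le_card e3).trans (hn' _)
  have s1 := gen u N (fun x hx => by
    obtain ⟨i1, a1, a2, -⟩ := hG.ex x hx
    have := hG.lt x hx
    exact ⟨by omega, hG.g x hx⟩) hG.N
  have s2 := gen v N2 (fun x hx => by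
    obtain ⟨i1, a1, a2, a3, -⟩ := hG.ex x hx
    have := hG.lt x hx
    refine ⟨by omega, ?_⟩
    exact VD.gd_of (lkR_sub a3 (hf (show v x ≤ i1 by omega))) (hG.g x hx) (hf (by omega)) le_rfl) hN2
  rw [Finset.sum_add_distrib]
  push_cast
  have n1 : (0 : ℝ) ≤ N := Nat.cast_nonneg _
  have n2 : (0 : ℝ) ≤ N2 := Nat.cast_nonneg _
  have t1 := mul_le_mul_of_nonneg_left h0 n1
  have t2 := mul_le_mul_of_nonneg_left h0 n2
  linarith

end rec

end Vale.Agent.P106.U.H384.F1
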