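import Vale.Agent.P106.U.H785.MtrOk
import Vale.Agent.P106.U.H364.N4

/-!
# P106 / U / H384 : [MTR-W], the cell `mtr i b` is a near-function of the letter of the base (helper384)

`D : Mtd` (helper785), `i ∈ I` with `Hy K I`, `F ω` = functional of the label, written at the time `s ω`.

* `LbM D K A i F s ω` : the label at the point `ω`; the true numbers of the step are those of the label
  (`un = cN F`, `κ i = ka F + (s - s i) al i`), the prefix is near the curvatures.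
* `okW_p1` : 364's `OkW` for the one-letter path `p1 i`.
* `ka_dif`, `u_dif` : the true kappa and gamma at two points of one label: `2 K`, `8 K M` units of `2^-rk`.
* `BadW` : the exceptional event: `Bad` of the path `p1 i`, or the kappa / gamma digits are near a change.
* **`lt_of_W`**, **`mtr_of_W`** : letter and cell are functions of `Y` outside `BadW`.
* **`hc_mtr_W`** : the entropy form.
-/

set_option autoImplicit false

namespace Vale.Agent.P106.U.H384.MtrW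

open Finset Vale.Agent.P127 Vale.Agent.P127.Stk
open Vale.Agent.P127.U.CellD (q2 rd Nb q2_pos q2_add q2_mul_pow q2_le rd_err fl1_fl1)
open Vale.Agent.P106.U.Cell
open Vale.Agent.P106.U.Cell.Pth (q2_le_one)
open Vale.Agent.P106.U.H785.Mtr
open Vale.Agent.P106.U.H364.N4 (OkW ClW cst one_le_cst cell_of_W nrF hc_of_clo clo_of_W int_card)

variable {Ω π : Type} {D : Mtd Ω π} {K M : ℝ} {I : Set ℕ} {i b A h q : ℕ} {F : Fu} {s : ℝ} {ω ω' : Ω}

/-- the label at the point `ω`, for the true letters of the step `i` -/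
structure LbM (D : Mtd Ω π) (K : ℝ) (A i : ℕ) (F : Fu) (s : ℝ) (ω : Ω) : Prop where
  n1 : 1 ≤ K * F.cN (D.l ω) s
  n2 : F.cN (D.l ω) s ≤ K
  k1 : |F.ka| ≤ K
  a1 : |F.al| * q2 A ≤ K
  pv : |F.cV (D.l ω) s - D.p ω * F.cN (D.l ω) s| ≤ K * q2 (D.rf i)
  un : D.un ω = F.cN (D.l ω) s
  ka : D.κ i ω = F.ka + (s - D.s i ω) * D.al i ω
  ag : |F.al - D.g i ω| * q2 A ≤ K * q2 (D.rk i)
  ts : |s - D.s i ω| ≤ q2 (D.a i)

lemma s_p1 (D : Mtd Ω π) (i k : ℕ) (ω : Ω) : (D.p1 i).s k ω = D.s i ω := rfl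

lemma l_p1 (D : Mtd Ω π) (i : ℕ) (ω : Ω) : (D.p1 i).l ω = D.l ω := rfl

/-- **the label is admissible for the one-letter path** -/
theorem okW_p1 (h1 : 1 ≤ K) (hy : D.Hy K I ω) (hi : i ∈ I) (hw : LbM D K A i F s ω) :
    OkW (D.p1 i) (8 * K) A 0 F s ω := by
  have K0 : 0 < K := by linarith
  have e1 := Mtd.cN_near h1 hy hi
  have e2 := Mtd.ka_near D i ω
  have rl := Mtd.rr_le D i
  have q := q2_pos (D.rr i)
  have cN0 : 0 < F.cN (D.l ω) s := by
    by_contra hn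
    push Not at hn
    have := hw.n1
    nlinarith
  refine ⟨?_, ?_, ?_, ?_, ?_, ⟨?_, ?_, ?_⟩, hw.ts⟩
  · show 1 ≤ 8 * K * F.cN (D.l ω) s
    have := hw.n1
    linarith
  · show F.cN (D.l ω) s ≤ 8 * K
    have := hw.n2
    linarith
  · have := hw.k1
    linarith
  · have := hw.a1
    linarith
  · show |F.cV (D.l ω) s - D.p ω * F.cN (D.l ω) s| ≤ 8 * K * q2 (D.rf i)
    have := hw.pv
    have := q2_pos (D.rf i)
    nlinarith
  · have e := Fu.cN_sh ((D.p1 i).F 0 ω) (D.l ω) (D.s i ω) (s - D.s i ω)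
    rw [add_sub_cancel] at e
    show |F.cN (D.l ω) s - (((D.p1 i).F 0 ω).sh (s - D.s i ω)).cN (D.l ω) s| ≤ 8 * K * q2 (D.rr i)
    rw [e, ← hw.un, abs_sub_comm]
    show |D.cNL i ω - D.un ω| ≤ 8 * K * q2 (D.rr i)
    refine e1.trans ?_
    nlinarith
  · show |F.ka - (D.kaL i (D.lt i ω) - (s - D.s i ω) * D.g i ω)| ≤ 8 * K * q2 (D.rr i)
    have e3 : F.ka - (D.kaL i (D.lt i ω) - (s - D.s i ω) * D.g i ω) =
        -(D.kaL i (D.lt i ω) - D.κ i ω) - (s - D.s i ω) * (D.al i ω - D.g i ω) := by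
      rw [hw.ka]; ring
    have e4 : |(s - D.s i ω) * (D.al i ω - D.g i ω)| ≤ K * q2 (D.rr i) := by
      rw [abs_mul]
      calc |s - D.s i ω| * |D.al i ω - D.g i ω| ≤ q2 (D.a i) * |D.al i ω - D.g i ω| :=
            mul_le_mul_of_nonneg_right hw.ts (abs_nonneg _)
        _ = |D.al i ω - D.g i ω| * q2 (D.a i) := mul_comm _ _
        _ ≤ K * q2 (D.rk i) := hy.ap i hi
        _ ≤ K * q2 (D.rr i) := mul_le_mul_of_nonneg_left rl K0.le
    rw [e3]
    refine (abs_sub _ _).trans ?_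
    rw [abs_neg]
    nlinarith
  · show |F.al - D.g i ω| * q2 A ≤ 8 * K * q2 (D.rr i)
    refine hw.ag.trans ?_
    nlinarith [q2_pos (D.rk i)]

/-- the curvatures of two points with the same prefix -/
lemma al_dif (hy : D.Hy K I ω) (hy' : D.Hy K I ω') (hi : i ∈ I) (ep : D.pf i ω = D.pf i ω') :
    |D.al i ω' - D.al i ω| * q2 (D.a i) ≤ 2 * K * q2 (D.rk i) := by
  have e1 := hy.ap i hi
  have e2 := hy'.ap i hi
  have eg : D.g i ω' = D.g i ω := by
    show D.gv i (D.pf i ω') = D.gv i (D.pf i ω)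
    rw [ep]
  have e3 : |D.al i ω' - D.al i ω| ≤ |D.al i ω' - D.g i ω'| + |D.al i ω - D.g i ω| := by
    have : D.al i ω' - D.al i ω = (D.al i ω' - D.g i ω') - (D.al i ω - D.g i ω) := by rw [eg]; ring
    rw [this]
    exact abs_sub _ _
  have e4 := mul_le_mul_of_nonneg_right e3 (q2_pos (D.a i)).le
  linarith

lemma s_dif (et : fl1 (D.a i) (D.t ω) = fl1 (D.a i) (D.t ω')) : D.s i ω' = D.s i ω := by
  show rd (D.a i) (D.t ω') = rd (D.a i) (D.t ω)
  unfold rd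
  rw [et]

/-- **the true kappa at two points of one label** -/
theorem ka_dif (hy : D.Hy K I ω) (hy' : D.Hy K I ω') (hi : i ∈ I) (hw : LbM D K A i F s ω)
    (hw' : LbM D K A i F s ω') (et : fl1 (D.a i) (D.t ω) = fl1 (D.a i) (D.t ω')) (ep : D.pf i ω = D.pf i ω') :
    |D.κ i ω' - D.κ i ω| ≤ 2 * K * q2 (D.rk i) := by
  have e1 : D.κ i ω' - D.κ i ω = (s - D.s i ω) * (D.al i ω' - D.al i ω) := by
    rw [hw.ka, hw'.ka, s_dif et]; ring
  rw [e1, abs_mul]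
  calc |s - D.s i ω| * |D.al i ω' - D.al i ω| ≤ q2 (D.a i) * |D.al i ω' - D.al i ω| :=
        mul_le_mul_of_nonneg_right hw.ts (abs_nonneg _)
    _ = |D.al i ω' - D.al i ω| * q2 (D.a i) := mul_comm _ _
    _ ≤ _ := al_dif hy hy' hi ep

/-- gamma in terms of the label -/
lemma u_lab (hw : LbM D K A i F s ω) :
    D.u i ω = F.ga - F.al * (D.l ω).N s + D.al i ω * ((D.l ω).N s - D.Nr i ω) := by
  unfold Mtd.u
  rw [hw.un, hw.ka]
  unfold Fu.cN Ray.N
  ring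

/-- **the true gamma at two points of one label** -/
theorem u_dif (h1 : 1 ≤ K) (hM : 1 ≤ M) (hy : D.Hy K I ω) (hy' : D.Hy K I ω') (hi : i ∈ I)
    (hw : LbM D K A i F s ω) (hw' : LbM D K A i F s ω') (et : fl1 (D.a i) (D.t ω) = fl1 (D.a i) (D.t ω'))
    (ep : D.pf i ω = D.pf i ω') (eN : D.nN i ω = D.nN i ω') (hN : |(D.l ω').N s - (D.l ω).N s| ≤ M * q2 h)
    (ha : D.a i ≤ A) (hA : A ≤ h) : |D.u i ω' - D.u i ω| ≤ 8 * K * M * q2 (D.rk i) := by
  have K0 : 0 < K := by linarith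
  have M0 : 0 < M := by linarith
  have er : D.Nr i ω' = D.Nr i ω := by unfold Mtd.Nr; rw [eN]
  have es := s_dif et
  have qa := q2_pos (D.a i)
  have qk := q2_pos (D.rk i)
  rw [u_lab hw, u_lab hw', er]
  have e1 : F.ga - F.al * (D.l ω').N s + D.al i ω' * ((D.l ω').N s - D.Nr i ω) -
      (F.ga - F.al * (D.l ω).N s + D.al i ω * ((D.l ω).N s - D.Nr i ω)) =
      (D.al i ω - D.g i ω) * ((D.l ω').N s - (D.l ω).N s) - (F.al - D.g i ω) * ((D.l ω').N s - (D.l ω).N s) +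
      (D.al i ω' - D.al i ω) * ((D.l ω').N s - D.Nr i ω) := by ring
  have hqh : q2 h ≤ q2 (D.a i) := q2_le (by omega)
  have hqA : q2 h ≤ q2 A := q2_le hA
  have t1 : |(D.al i ω - D.g i ω) * ((D.l ω').N s - (D.l ω).N s)| ≤ K * M * q2 (D.rk i) := by
    rw [abs_mul]
    calc |D.al i ω - D.g i ω| * |(D.l ω').N s - (D.l ω).N s| ≤ |D.al i ω - D.g i ω| * (M * q2 (D.a i)) :=
          mul_le_mul_of_nonneg_left (hN.trans (mul_le_mul_of_nonneg_left hqh M0.le)) (abs_nonneg _)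
      _ = M * (|D.al i ω - D.g i ω| * q2 (D.a i)) := by ring
      _ ≤ M * (K * q2 (D.rk i)) := mul_le_mul_of_nonneg_left (hy.ap i hi) M0.le
      _ = _ := by ring
  have t2 : |(F.al - D.g i ω) * ((D.l ω').N s - (D.l ω).N s)| ≤ K * M * q2 (D.rk i) := by
    rw [abs_mul]
    calc |F.al - D.g i ω| * |(D.l ω').N s - (D.l ω).N s| ≤ |F.al - D.g i ω| * (M * q2 A) :=
          mul_le_mul_of_nonneg_left (hN.trans (mul_le_mul_of_nonneg_left hqA M0.le)) (abs_nonneg _)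
      _ = M * (|F.al - D.g i ω| * q2 A) := by ring
      _ ≤ M * (K * q2 (D.rk i)) := mul_le_mul_of_nonneg_left hw.ag M0.le
      _ = _ := by ring
  have t3 : |(D.l ω').N s - D.Nr i ω| ≤ 3 * q2 (D.a i) := by
    have e2 := Mtd.Nr_near D i ω'
    rw [er, es] at e2
    have e3 : (D.l ω').N s - D.Nr i ω = ((D.l ω').N (D.s i ω) - D.Nr i ω) + (s - D.s i ω) * (D.l ω').w := by
      unfold Ray.N; ring
    have e4 : |(s - D.s i ω) * (D.l ω').w| ≤ q2 (D.a i) * 2 := by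
      rw [abs_mul]
      exact mul_le_mul hw.ts hy'.w1 (abs_nonneg _) qa.le
    rw [e3]
    refine (abs_add_le _ _).trans ?_
    linarith
  have t4 : |(D.al i ω' - D.al i ω) * ((D.l ω').N s - D.Nr i ω)| ≤ 6 * K * q2 (D.rk i) := by
    rw [abs_mul]
    calc |D.al i ω' - D.al i ω| * |(D.l ω').N s - D.Nr i ω| ≤ |D.al i ω' - D.al i ω| * (3 * q2 (D.a i)) :=
          mul_le_mul_of_nonneg_left t3 (abs_nonneg _)
      _ = 3 * (|D.al i ω' - D.al i ω| * q2 (D.a i)) := by ring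
      _ ≤ 3 * (2 * K * q2 (D.rk i)) := mul_le_mul_of_nonneg_left (al_dif hy hy' hi ep) (by norm_num)
      _ = _ := by ring
  have t5 : 6 * K * q2 (D.rk i) ≤ 6 * (K * M * q2 (D.rk i)) := by
    have : K * q2 (D.rk i) * 1 ≤ K * q2 (D.rk i) * M := mul_le_mul_of_nonneg_left hM (by positivity)
    nlinarith
  rw [e1]
  have r1 := abs_le.1 t1
  have r2 := abs_le.1 t2
  have r4 := abs_le.1 t4
  rw [abs_le]
  constructor
  · linarith [r1.1, r2.2, r4.1]
  · linarith [r1.2, r2.1, r4.2]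

/-- hypotheses for the pairs of points of one value of the letter of the base -/
structure Same (D : Mtd Ω π) (M : ℝ) (i b h q : ℕ) (F : Fu) (s : ℝ) (ω ω' : Ω) : Prop where
  et : fl1 (D.a i) (D.t ω) = fl1 (D.a i) (D.t ω')
  ev : fl1 b (D.l ω).v = fl1 b (D.l ω').v
  ep : D.pf i ω = D.pf i ω'
  cl : ClW M h q F (D.l ω) (D.l ω') s

/-- levels -/
structure LvM (D : Mtd Ω π) (K M : ℝ) (i b A h q : ℕ) : Prop where
  l1 : 8 * D.μ ≤ b
  l2 : 8 * D.μ ≤ D.R i b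
  a : D.a i ≤ A
  A : A + 2 * b ≤ h
  q : D.R i b + b ≤ q
  b : (8 * K) ^ 2 * M * q2 (2 * b) ≤ 1

/-- the exceptional event -/
def BadW (D : Mtd Ω π) (K M : ℝ) (i b : ℕ) (ω : Ω) : Prop :=
  (D.p1 i).Bad (4 * cst (8 * K) M) 0 b ω ∨ Nb (D.rr i) (D.κ i ω + D.oκ) (2 * K * q2 (D.rk i)) ∨
    Nb (D.rr i) (D.u i ω + D.oγ) (8 * K * M * q2 (D.rk i))

/-- the two rays at the time of the step -/
theorem nr_W (h1 : 1 ≤ K) (hM : 1 ≤ M) (hy : D.Hy K I ω) (hy' : D.Hy K I ω') (hi : i ∈ I)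
    (hw : LbM D K A i F s ω) (hw' : LbM D K A i F s ω') (L : LvM D K M i b A h q)
    (hs : Same D M i b h q F s ω ω') :
    |(D.l ω').N (D.s i ω) - (D.l ω).N (D.s i ω)| ≤ cst (8 * K) M * q2 (D.a i + b) := by
  have hq : (D.p1 i).R 0 b + b ≤ q := by
    rw [Mtd.p1_R]; exact L.q
  have := nrF (C := D.p1 i) (i := 0) (b := b) (K := 8 * K) (by linarith) hM
    (Mtd.pa_ok h1 hy (fun _ => hi)) (Mtd.pa_ok h1 hy' (fun _ => hi)) (okW_p1 h1 hy hi hw) (okW_p1 h1 hy' hi hw')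
    hs.ev L.a L.A hq L.b hs.cl
  exact this.N

/-- the digits of the N-position -/
theorem nN_of_W (h1 : 1 ≤ K) (hM : 1 ≤ M) (hy : D.Hy K I ω) (hy' : D.Hy K I ω') (hi : i ∈ I)
    (hw : LbM D K A i F s ω) (hw' : LbM D K A i F s ω') (L : LvM D K M i b A h q)
    (hs : Same D M i b h q F s ω ω') (hB : ¬ (D.p1 i).Bad (4 * cst (8 * K) M) 0 b ω) :
    D.nN i ω = D.nN i ω' := by
  have e1 := nr_W h1 hM hy hy' hi hw hw' L hs
  have c1 := one_le_cst (K := 8 * K) (M := M) (by linarith) hM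
  have hlv : (D.p1 i).lv 0 b 2 = D.a i + b - D.μ := rfl
  have hva : (D.p1 i).va 0 b ω 2 = (D.l ω).N (D.s i ω) := rfl
  have hn : ¬ Nb (D.a i + b - D.μ) ((D.l ω).N (D.s i ω) + D.o 2)
      (4 * cst (8 * K) M * q2 (D.a i + b - D.μ + D.μ)) := fun hn => hB ⟨2, hn⟩
  have hl := L.l1
  rw [show D.a i + b - D.μ + D.μ = D.a i + b by omega] at hn
  have q := q2_pos (D.a i + b)
  have e2 : |((D.l ω').N (D.s i ω) + D.o 2) - ((D.l ω).N (D.s i ω) + D.o 2)| ≤
      4 * cst (8 * K) M * q2 (D.a i + b) := by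
    rw [add_sub_add_right_eq_sub]
    refine e1.trans ?_
    nlinarith
  have e3 := Nb.eq hn (y := (D.l ω).N (D.s i ω) + D.o 2) (y' := (D.l ω').N (D.s i ω) + D.o 2)
    (by rw [sub_self, abs_zero]; positivity) e2
  show fl1 (D.a i) ((D.l ω).N (D.s i ω) + D.o 2) = fl1 (D.a i) ((D.l ω').N (D.s i ω') + D.o 2)
  rw [s_dif hs.et]
  exact fl1_fl1 (by omega) e3

/-- **the letter is a function of the letter of the base** outside `BadW` -/
theorem lt_of_W (h1 : 1 ≤ K) (hM : 1 ≤ M) (hy : D.Hy K I ω) (hy' : D.Hy K I ω') (hi : i ∈ I)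
    (hw : LbM D K A i F s ω) (hw' : LbM D K A i F s ω') (L : LvM D K M i b A h q)
    (hs : Same D M i b h q F s ω ω') (hB : ¬ BadW D K M i b ω) : D.lt i ω = D.lt i ω' := by
  unfold BadW at hB
  push Not at hB
  obtain ⟨b1, b2, b3⟩ := hB
  have eN := nN_of_W h1 hM hy hy' hi hw hw' L hs b1
  have ek := ka_dif hy hy' hi hw hw' hs.et hs.ep
  have eu := u_dif h1 hM hy hy' hi hw hw' hs.et hs.ep eN hs.cl.N L.a (by have := L.A; omega)
  have qk := q2_pos (D.rk i)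
  have e1 : D.kN i ω = D.kN i ω' :=
    Nb.eq b2 (y := D.κ i ω + D.oκ) (y' := D.κ i ω' + D.oκ) (by rw [sub_self, abs_zero]; positivity)
      (by rw [add_sub_add_right_eq_sub]; exact ek)
  have e2 : D.uN i ω = D.uN i ω' :=
    Nb.eq b3 (y := D.u i ω + D.oγ) (y' := D.u i ω' + D.oγ)
      (by rw [sub_self, abs_zero]; positivity) (by rw [add_sub_add_right_eq_sub]; exact eu)
  unfold Mtd.lt
  rw [hs.et, hs.ep, e1, e2, eN]

/-- **the cell is a function of the letter of the base** outside `BadW` -/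
theorem mtr_of_W (h1 : 1 ≤ K) (hM : 1 ≤ M) (hy : D.Hy K I ω) (hy' : D.Hy K I ω') (hi : i ∈ I)
    (hw : LbM D K A i F s ω) (hw' : LbM D K A i F s ω') (L : LvM D K M i b A h q)
    (hs : Same D M i b h q F s ω ω') (hB : ¬ BadW D K M i b ω) : D.mtr i b ω = D.mtr i b ω' := by
  have hl := lt_of_W h1 hM hy hy' hi hw hw' L hs hB
  rw [← D.p1_cell_iff i 0 b ω ω']
  have hT : (D.p1 i).T 0 ω = (D.p1 i).T 0 ω' := by
    unfold Mtd.p1
    rw [Mtd.pa_T_iff]
    exact fun _ _ => hl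
  have hq : (D.p1 i).R 0 b + b ≤ q := by
    rw [Mtd.p1_R]; exact L.q
  refine cell_of_W (C := D.p1 i) (i := 0) (b := b) (K := 8 * K) (by linarith) hM
    (Mtd.pa_ok h1 hy (fun _ => hi)) (Mtd.pa_ok h1 hy' (fun _ => hi)) (okW_p1 h1 hy hi hw) (okW_p1 h1 hy' hi hw')
    hT hs.ev ⟨L.l1, ?_⟩ L.a L.A hq L.b hs.cl fun hb => hB (Or.inl hb)
  show 8 * D.μ ≤ (D.p1 i).R 0 b
  rw [Mtd.p1_R]
  exact L.l2

end Vale.Agent.P106.U.H384.MtrW
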