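import Vale.Agent.P106.U.H931.Nxt

/-!
# P106 / U / H384 : telescoping over runs (helper384)

Indices `i`, `lk i` = the indices `i` and `i + 1` are in one run, `rs lk i` = start of the run of `i`.

* `card_runs` : the number of runs is at most the number of their ends plus one.
* `tele_runsI` : the same for a family of pairs; `lkF`, `card_lkF` : runs of a subsequence of the indices.
* **`tele_runs`** : `∑ mi P (X (rs k)) (E i) (E k) ≤ #runs (N L H) + ∑ (ν k + ν i)` over pairs `(k, i)` of a finite set, the cells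
  `E` near-nested along a run after the gain `K1` of the time level; the variable `X` is constant along a run only.
-/

set_option autoImplicit false

namespace Vale.Agent.P106.U.H384.Runs

open Finset Vale.Agent.P127 Vale.Agent.P127.Stk

open Classical in
/-- start of the run of `i` -/
noncomputable def rs (lk : ℕ → Prop) : ℕ → ℕ
  | 0 => 0
  | i + 1 => if lk i then rs lk i else i + 1

section comb

variable {lk gd : ℕ → Prop} {i j k n : ℕ}

lemma rs_zero : rs lk 0 = 0 := rfl

lemma rs_succ_of (h : lk i) : rs lk (i + 1) = rs lk i := by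
  rw [rs]
  exact if_pos h

lemma rs_succ_not (h : ¬ lk i) : rs lk (i + 1) = i + 1 := by
  rw [rs]
  exact if_neg h

lemma rs_le (lk : ℕ → Prop) (i : ℕ) : rs lk i ≤ i := by
  induction i with
  | zero => exact le_rfl
  | succ i ih =>
    by_cases h : lk i
    · rw [rs_succ_of h]; omega
    · rw [rs_succ_not h]

lemma rs_step (lk : ℕ → Prop) (i : ℕ) : rs lk i ≤ rs lk (i + 1) := by
  by_cases h : lk i
  · rw [rs_succ_of h]
  · rw [rs_succ_not h]
    have := rs_le lk i
    omega

lemma rs_mono (lk : ℕ → Prop) : Monotone (rs lk) := monotone_nat_of_le_succ (rs_step lk)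

/-- an index between the start and `j` is in the run of `j` -/
lemma rs_of (h1 : rs lk j ≤ i) (h2 : i ≤ j) : rs lk i = rs lk j := by
  induction j with
  | zero =>
    have : i = 0 := by omega
    rw [this]
  | succ j ih =>
    rcases Nat.lt_or_ge j i with h | h
    · have : i = j + 1 := by omega
      rw [this]
    · by_cases hl : lk j
      · rw [rs_succ_of hl] at h1 ⊢
        exact ih h1 h
      · rw [rs_succ_not hl] at h1
        omega

/-- .. and linked to its successor -/
lemma lk_of (h1 : rs lk j ≤ i) (h2 : i < j) : lk i := by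
  have e1 : rs lk (i + 1) = rs lk j := rs_of (by omega) (by omega)
  by_contra h
  rw [rs_succ_not h] at e1
  omega

lemma rs_rs (lk : ℕ → Prop) (i : ℕ) : rs lk (rs lk i) = rs lk i := rs_of le_rfl (rs_le lk i)

/-- the whole interval is linked -/
lemma rs_eq_of (h : i ≤ j) (hl : ∀ e, i ≤ e → e < j → lk e) : rs lk i = rs lk j := by
  induction j, h using Nat.le_induction with
  | base => rfl
  | succ j hj ih =>
    rw [rs_succ_of (hl j hj (by omega))]
    exact ih fun e h1 h2 => hl e h1 (by omega)

lemma rs_eq_iff (h : i ≤ j) : rs lk i = rs lk j ↔ ∀ e, i ≤ e → e < j → lk e := by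
  refine ⟨fun e0 e h1 h2 => lk_of (j := j) ?_ h2, rs_eq_of h⟩
  rw [← e0]
  exact (rs_le lk i).trans h1

/-- **the number of runs** -/
theorem card_runs (hlk : ∀ e < n, lk e → gd (e + 1)) (S : Finset ℕ) (hS : ∀ i ∈ S, i ≤ n ∧ gd i) (F : Finset ℕ)
    (hF : ∀ e < n, gd e → ¬ lk e → e ∈ F) : (S.image (rs lk)).card ≤ F.card + 1 := by
  classical
  -- the end of the run with the start `v`
  set en : ℕ → ℕ := fun v => Nat.findGreatest (fun e => rs lk e = v) n with hen
  have key : ∀ v ∈ S.image (rs lk), rs lk (en v) = v ∧ en v ∈ insert n F := by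
    intro v hv
    obtain ⟨i, hi, rfl⟩ := Finset.mem_image.1 hv
    obtain ⟨i1, i2⟩ := hS i hi
    have h1 : rs lk (en (rs lk i)) = rs lk i := Nat.findGreatest_spec (P := fun e => rs lk e = rs lk i) i1 rfl
    have h2 : i ≤ en (rs lk i) := Nat.le_findGreatest (P := fun e => rs lk e = rs lk i) i1 rfl
    have h3 : en (rs lk i) ≤ n := Nat.findGreatest_le n
    refine ⟨h1, ?_⟩
    rcases h3.eq_or_lt with h4 | h4
    · rw [h4]
      exact Finset.mem_insert_self _ _
    · refine Finset.mem_insert_of_mem (hF _ h4 ?_ ?_)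
      · -- `gd` at the end
        have h5 : ∀ e, i ≤ e → e ≤ en (rs lk i) → gd e := by
          intro e he
          induction e, he using Nat.le_induction with
          | base => exact fun _ => i2
          | succ e he ih =>
            intro h6
            refine hlk e (by omega) (lk_of (j := en (rs lk i)) ?_ (by omega))
            rw [h1]
            exact (rs_le lk i).trans he
        exact h5 _ h2 le_rfl
      · intro h5
        have h6 : rs lk (en (rs lk i) + 1) = rs lk i := by rw [rs_succ_of h5, h1]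
        have h7 : en (rs lk i) + 1 ≤ en (rs lk i) :=
          Nat.le_findGreatest (P := fun e => rs lk e = rs lk i) (by omega) h6
        omega
  refine (Finset.card_le_card_of_injOn en (fun v hv => (key v hv).2) ?_).trans (Finset.card_insert_le _ _)
  intro v hv v' hv' e
  rw [← (key v hv).1, ← (key v' hv').1]
  exact congrArg (rs lk) e

end comb

section tele

variable {Ω : Type} [Fintype Ω] (P : Law Ω) {S U : Type*} {lk gd : ℕ → Prop}

/-- **telescoping over runs** -/
theorem tele_runs (X : ℕ → Ω → U) (E : ℕ → Ω → S) (a : ℕ → ℕ) (ν : ℕ → ℝ) (n K1 L N : ℕ) {H : ℝ}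
    (hK1 : 1 ≤ K1) (ha : ∀ i j, i ≤ j → j ≤ n → a i ≤ a j)
    (hlk : ∀ e < n, lk e → gd e ∧ gd (e + 1)) (hν0 : ∀ i ≤ n, 0 ≤ ν i)
    (hν : ∀ i j, i ≤ j → j ≤ n → gd i → gd j → (∀ e, i ≤ e → e < j → lk e) → a i + K1 ≤ a j → hc P (E i) (E j) ≤ ν i)
    (hH : ∀ i ≤ n, gd i → hc P (X (rs lk i)) (E i) ≤ H) (G : Finset (ℕ × ℕ))
    (hG : ∀ p ∈ G, p.1 < p.2 ∧ a p.1 + K1 ≤ a p.2 ∧ ∃ i1 ≤ n, p.2 < i1 ∧ (∀ e, p.1 ≤ e → e < i1 → lk e) ∧
      a p.2 + K1 ≤ a i1 ∧ i1 ≤ p.1 + L)
    (hN : ∀ j, (G.filter fun p => p.1 = j).card ≤ N) :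
    ∑ p ∈ G, mi P (X (rs lk p.1)) (E p.2) (E p.1) ≤
      (G.image fun p => rs lk p.1).card * (N * (L * H)) + ∑ p ∈ G, (ν p.1 + ν p.2) := by
  classical
  have hrun : ∀ v ∈ G.image fun p => rs lk p.1,
      ∑ p ∈ G with rs lk p.1 = v, mi P (X (rs lk p.1)) (E p.2) (E p.1) ≤
        N * (L * H) + ∑ p ∈ G with rs lk p.1 = v, (ν p.1 + ν p.2) := by
    intro v hv
    set e : ℕ := Nat.findGreatest (fun e => rs lk e = v) n with he
    obtain ⟨p0, hp0, hv0⟩ := Finset.mem_image.1 hv
    obtain ⟨-, -, i0, a1, a2, a3, -⟩ := hG p0 hp0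
    have a4 : rs lk i0 = v := by
      have h := rs_eq_of (lk := lk) (i := p0.1) (j := i0) (by have := (hG p0 hp0).1; omega) a3
      rw [← h]
      exact hv0
    have e1 : rs lk e = v := Nat.findGreatest_spec (P := fun e => rs lk e = v) a1 a4
    have e3 : e ≤ n := Nat.findGreatest_le n
    have ve : v ≤ e := by
      rw [← e1]
      exact rs_le lk e
    have lke : ∀ x, v ≤ x → x < e → lk x := fun x h1 h2 => lk_of (j := e) (by rw [e1]; exact h1) h2
    have rse : ∀ x, v ≤ x → x ≤ e → rs lk x = v := fun x h1 h2 => by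
      rw [rs_of (j := e) (by rw [e1]; exact h1) h2, e1]
    -- the pairs of this run
    have hp : ∀ p ∈ G.filter (fun p => rs lk p.1 = v), v ≤ p.1 ∧ p.1 < p.2 ∧ p.2 < e ∧ a p.1 + K1 ≤ a p.2 ∧
        ∃ i1 ≤ e, p.2 < i1 ∧ a p.2 + K1 ≤ a i1 ∧ i1 ≤ p.1 + L := by
      intro p hp
      obtain ⟨hpG, hpv⟩ := Finset.mem_filter.1 hp
      obtain ⟨b1, b2, i1, b3, b4, b5, b6, b7⟩ := hG p hpG
      have c1 : rs lk i1 = v := by
        rw [← rs_eq_of (lk := lk) (i := p.1) (j := i1) (by omega) b5]
        exact hpv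
      have c2 : i1 ≤ e := Nat.le_findGreatest (P := fun e => rs lk e = v) b3 c1
      refine ⟨?_, b1, by omega, b2, i1, c2, b4, b6, b7⟩
      rw [← hpv]
      exact rs_le lk p.1
    have hvlt : v < e := by
      have := hp p0 (Finset.mem_filter.2 ⟨hp0, hv0⟩)
      omega
    have gde : ∀ x, v ≤ x → x ≤ e → gd x := by
      intro x h1 h2
      rcases h2.eq_or_lt with h3 | h3
      · obtain ⟨y, rfl⟩ : ∃ y, x = y + 1 := ⟨x - 1, by omega⟩
        exact (hlk y (by omega) (lke y (by omega) (by omega))).2
      · exact (hlk x (by omega) (lke x h1 h3)).1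
    set G' : Finset (ℕ × ℕ) := (G.filter fun p => rs lk p.1 = v).image fun p => (p.1 - v, p.2 - v) with hG'
    have hinj : ∀ x ∈ G.filter (fun p => rs lk p.1 = v), ∀ y ∈ G.filter (fun p => rs lk p.1 = v),
        (fun p : ℕ × ℕ => (p.1 - v, p.2 - v)) x = (fun p : ℕ × ℕ => (p.1 - v, p.2 - v)) y → x = y := by
      intro x hx y hy h
      have h1 := hp x hx
      have h2 := hp y hy
      simp only [Prod.mk.injEq] at h
      exact Prod.ext (by omega) (by omega)
    have main := H931.tele_reg P (X v) (fun j => E (v + j)) (fun j => a (v + j)) (fun j => ν (v + j)) (e - v) K1 L N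
      (H := H) (fun i j h1 h2 => ha _ _ (by omega) (by omega)) (fun i hi => hν0 _ (by omega))
      (fun i j h1 h2 h3 => by
        have h4 : i ≤ j := by
          by_contra h4
          have h5 := ha (v + j) (v + i) (by omega) (by omega)
          have h6 : a (v + i) + K1 ≤ a (v + i) := le_trans h3 h5
          omega
        exact hν (v + i) (v + j) (by omega) (by omega) (gde _ (by omega) (by omega)) (gde _ (by omega) (by omega))
          (fun x h5 h6 => lke x (by omega) (by omega)) h3)
      (fun i hi => by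
        have := hH (v + i) (by omega) (gde _ (by omega) (by omega))
        rwa [rse (v + i) (by omega) (by omega)] at this)
      G' ?_ ?_
    · rw [hG', Finset.sum_image hinj, Finset.sum_image hinj] at main
      refine le_trans (le_of_eq ?_) (main.trans (le_of_eq ?_))
      · refine Finset.sum_congr rfl fun p h => ?_
        obtain ⟨h1, h2, -⟩ := hp p h
        simp only
        rw [(Finset.mem_filter.1 h).2, show v + (p.1 - v) = p.1 by omega, show v + (p.2 - v) = p.2 by omega]
      · congr 1
        refine Finset.sum_congr rfl fun p h => ?_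
        obtain ⟨h1, h2, -⟩ := hp p h
        simp only
        rw [show v + (p.1 - v) = p.1 by omega, show v + (p.2 - v) = p.2 by omega]
    · intro q hq
      obtain ⟨p, h, rfl⟩ := Finset.mem_image.1 hq
      obtain ⟨b1, b2, b3, b4, i1, b5, b6, b7, b8⟩ := hp p h
      simp only
      rw [show v + (p.1 - v) = p.1 by omega, show v + (p.2 - v) = p.2 by omega]
      refine ⟨by omega, by omega, b4, i1 - v, by omega, ?_, by omega⟩
      rw [show v + (i1 - v) = i1 by omega]
      exact b7
    · intro j
      refine le_trans ?_ (hN (v + j))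
      refine Finset.card_le_card_of_injOn (fun q => (v + q.1, v + q.2)) ?_ ?_
      · intro q hq
        rw [Finset.mem_coe, Finset.mem_filter] at hq
        obtain ⟨p, h, rfl⟩ := Finset.mem_image.1 hq.1
        obtain ⟨b1, b2, -⟩ := hp p h
        have hq2 := hq.2
        simp only at hq2 ⊢
        rw [Finset.mem_coe, Finset.mem_filter, show v + (p.1 - v) = p.1 by omega, show v + (p.2 - v) = p.2 by omega]
        exact ⟨(Finset.mem_filter.1 h).1, by omega⟩
      · intro q _ q' _ h
        simp only [Prod.mk.injEq] at h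
        exact Prod.ext (by omega) (by omega)
  have e1 := Finset.sum_fiberwise_of_maps_to (s := G) (t := G.image fun p => rs lk p.1) (g := fun p => rs lk p.1)
    (fun p hp => Finset.mem_image_of_mem _ hp) (fun p => mi P (X (rs lk p.1)) (E p.2) (E p.1))
  have e2 := Finset.sum_fiberwise_of_maps_to (s := G) (t := G.image fun p => rs lk p.1) (g := fun p => rs lk p.1)
    (fun p hp => Finset.mem_image_of_mem _ hp) (fun p => ν p.1 + ν p.2)
  rw [← e1, ← e2]
  refine (Finset.sum_le_sum hrun).trans ?_
  rw [Finset.sum_add_distrib, Finset.sum_const, nsmul_eq_mul]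

/-- **telescoping over runs, a family of pairs** `(u x, v x)` -/
theorem tele_runsI {ι : Type*} (X : ℕ → Ω → U) (E : ℕ → Ω → S) (a : ℕ → ℕ) (ν : ℕ → ℝ) (n K1 L N : ℕ) {H : ℝ}
    (hK1 : 1 ≤ K1) (ha : ∀ i j, i ≤ j → j ≤ n → a i ≤ a j)
    (hlk : ∀ e < n, lk e → gd e ∧ gd (e + 1)) (hν0 : ∀ i ≤ n, 0 ≤ ν i)
    (hν : ∀ i j, i ≤ j → j ≤ n → gd i → gd j → (∀ e, i ≤ e → e < j → lk e) → a i + K1 ≤ a j → hc P (E i) (E j) ≤ ν i)
    (hH : ∀ i ≤ n, gd i → hc P (X (rs lk i)) (E i) ≤ H) (G : Finset ι) (u v : ι → ℕ)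
    (hG : ∀ x ∈ G, u x < v x ∧ a (u x) + K1 ≤ a (v x) ∧ ∃ i1 ≤ n, v x < i1 ∧ (∀ e, u x ≤ e → e < i1 → lk e) ∧
      a (v x) + K1 ≤ a i1 ∧ i1 ≤ u x + L)
    (hN : ∀ j, (G.filter fun x => u x = j).card ≤ N) :
    ∑ x ∈ G, mi P (X (rs lk (u x))) (E (v x)) (E (u x)) ≤
      (G.image fun x => rs lk (u x)).card * (N * (L * H)) + ∑ x ∈ G, (ν (u x) + ν (v x)) := by
  classical
  have hrun : ∀ w ∈ G.image fun x => rs lk (u x),
      ∑ x ∈ G with rs lk (u x) = w, mi P (X (rs lk (u x))) (E (v x)) (E (u x)) ≤
        N * (L * H) + ∑ x ∈ G with rs lk (u x) = w, (ν (u x) + ν (v x)) := by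
    intro w hw
    set e : ℕ := Nat.findGreatest (fun e => rs lk e = w) n with he
    obtain ⟨p0, hp0, hw0⟩ := Finset.mem_image.1 hw
    obtain ⟨-, -, i0, a1, a2, a3, -⟩ := hG p0 hp0
    have a4 : rs lk i0 = w := by
      have h := rs_eq_of (lk := lk) (i := u p0) (j := i0) (by have := (hG p0 hp0).1; omega) a3
      rw [← h]
      exact hw0
    have e1 : rs lk e = w := Nat.findGreatest_spec (P := fun e => rs lk e = w) a1 a4
    have e3 : e ≤ n := Nat.findGreatest_le n
    have ve : w ≤ e := by
      rw [← e1]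
      exact rs_le lk e
    have lke : ∀ x, w ≤ x → x < e → lk x := fun x h1 h2 => lk_of (j := e) (by rw [e1]; exact h1) h2
    have rse : ∀ x, w ≤ x → x ≤ e → rs lk x = w := fun x h1 h2 => by
      rw [rs_of (j := e) (by rw [e1]; exact h1) h2, e1]
    have hp : ∀ x ∈ G.filter (fun x => rs lk (u x) = w), w ≤ u x ∧ u x < v x ∧ v x < e ∧ a (u x) + K1 ≤ a (v x) ∧
        ∃ i1 ≤ e, v x < i1 ∧ a (v x) + K1 ≤ a i1 ∧ i1 ≤ u x + L := by
      intro x hx
      obtain ⟨hpG, hpv⟩ := Finset.mem_filter.1 hx
      obtain ⟨b1, b2, i1, b3, b4, b5, b6, b7⟩ := hG x hpG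
      have c1 : rs lk i1 = w := by
        rw [← rs_eq_of (lk := lk) (i := u x) (j := i1) (by omega) b5]
        exact hpv
      have c2 : i1 ≤ e := Nat.le_findGreatest (P := fun e => rs lk e = w) b3 c1
      refine ⟨?_, b1, by omega, b2, i1, c2, b4, b6, b7⟩
      rw [← hpv]
      exact rs_le lk (u x)
    have hwlt : w < e := by
      have := hp p0 (Finset.mem_filter.2 ⟨hp0, hw0⟩)
      omega
    have gde : ∀ x, w ≤ x → x ≤ e → gd x := by
      intro x h1 h2
      rcases h2.eq_or_lt with h3 | h3
      · obtain ⟨y, rfl⟩ : ∃ y, x = y + 1 := ⟨x - 1, by omega⟩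
        exact (hlk y (by omega) (lke y (by omega) (by omega))).2
      · exact (hlk x (by omega) (lke x h1 h3)).1
    have main := H931.tele_regI P (X w) (fun j => E (w + j)) (fun j => a (w + j)) (fun j => ν (w + j)) (e - w) K1 L N
      (H := H) (fun i j h1 h2 => ha _ _ (by omega) (by omega)) (fun i hi => hν0 _ (by omega))
      (fun i j h1 h2 h3 => by
        have h4 : i ≤ j := by
          by_contra h4
          have h5 := ha (w + j) (w + i) (by omega) (by omega)
          have h6 : a (w + i) + K1 ≤ a (w + i) := le_trans h3 h5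
          omega
        exact hν (w + i) (w + j) (by omega) (by omega) (gde _ (by omega) (by omega)) (gde _ (by omega) (by omega))
          (fun x h5 h6 => lke x (by omega) (by omega)) h3)
      (fun i hi => by
        have := hH (w + i) (by omega) (gde _ (by omega) (by omega))
        rwa [rse (w + i) (by omega) (by omega)] at this)
      (G.filter fun x => rs lk (u x) = w) (fun x => u x - w) (fun x => v x - w) ?_ ?_
    · refine le_trans (le_of_eq ?_) (main.trans (le_of_eq ?_))
      · refine Finset.sum_congr rfl fun x h => ?_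
        obtain ⟨h1, h2, -⟩ := hp x h
        rw [(Finset.mem_filter.1 h).2, show w + (u x - w) = u x by omega, show w + (v x - w) = v x by omega]
      · congr 1
        refine Finset.sum_congr rfl fun x h => ?_
        obtain ⟨h1, h2, -⟩ := hp x h
        rw [show w + (u x - w) = u x by omega, show w + (v x - w) = v x by omega]
    · intro x h
      obtain ⟨b1, b2, b3, b4, i1, b5, b6, b7, b8⟩ := hp x h
      rw [show w + (u x - w) = u x by omega, show w + (v x - w) = v x by omega]
      refine ⟨by omega, by omega, b4, i1 - w, by omega, ?_, by omega⟩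
      rw [show w + (i1 - w) = i1 by omega]
      exact b7
    · intro j
      refine le_trans (Finset.card_le_card fun x hx => ?_) (hN (w + j))
      rw [Finset.mem_filter] at hx ⊢
      have h1 := hp x hx.1
      have h2 := hx.2
      exact ⟨(Finset.mem_filter.1 hx.1).1, by omega⟩
  have e1 := Finset.sum_fiberwise_of_maps_to (s := G) (t := G.image fun x => rs lk (u x)) (g := fun x => rs lk (u x))
    (fun x hx => Finset.mem_image_of_mem _ hx) (fun x => mi P (X (rs lk (u x))) (E (v x)) (E (u x)))
  have e2 := Finset.sum_fiberwise_of_maps_to (s := G) (t := G.image fun x => rs lk (u x)) (g := fun x => rs lk (u x))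
    (fun x hx => Finset.mem_image_of_mem _ hx) (fun x => ν (u x) + ν (v x))
  rw [← e1, ← e2]
  refine (Finset.sum_le_sum hrun).trans ?_
  rw [Finset.sum_add_distrib, Finset.sum_const, nsmul_eq_mul]

end tele

section map

/-! ### a subsequence of the indices -/

variable {lk gd : ℕ → Prop} {f : ℕ → ℕ}

/-- links of the subsequence `f` -/
def lkF (lk : ℕ → Prop) (f : ℕ → ℕ) (j : ℕ) : Prop := ∀ e, f j ≤ e → e < f (j + 1) → lk e

lemma lkF_of (hf : Monotone f) {i j : ℕ} (hl : ∀ e, f i ≤ e → e < f j → lk e) :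
    ∀ x, i ≤ x → x < j → lkF lk f x := fun _ h1 h2 e h3 h4 =>
  hl e ((hf h1).trans h3) (lt_of_lt_of_le h4 (hf h2))

lemma lk_of_lkF {i j : ℕ} (hij : i ≤ j) (hl : ∀ x, i ≤ x → x < j → lkF lk f x) :
    ∀ e, f i ≤ e → e < f j → lk e := by
  induction j, hij using Nat.le_induction with
  | base => intro e h1 h2; omega
  | succ j hj ih =>
    intro e h1 h2
    rcases Nat.lt_or_ge e (f j) with h3 | h3
    · exact ih (fun x x1 x2 => hl x x1 (by omega)) e h1 h3
    · exact hl j hj (by omega) e h3 h2

/-- the start of the run of the subsequence is in the run -/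
lemma rs_lkF (hf : Monotone f) (j : ℕ) : rs lk (f (rs (lkF lk f) j)) = rs lk (f j) :=
  rs_eq_of (hf (rs_le _ j)) (lk_of_lkF (rs_le _ j) fun _ h1 h2 => lk_of (lk := lkF lk f) h1 h2)

/-- **the number of the runs of the subsequence** -/
theorem card_lkF (hf : Monotone f) (S : Finset ℕ) :
    (S.image (rs (lkF lk f))).card ≤ ((S.image f).image (rs lk)).card := by
  classical
  refine Finset.card_le_card_of_injOn (fun j => rs lk (f j)) ?_ ?_
  · intro w hw
    obtain ⟨j, hj, rfl⟩ := Finset.mem_image.1 hw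
    simp only
    rw [rs_lkF hf]
    exact Finset.mem_image_of_mem _ (Finset.mem_image_of_mem _ hj)
  · intro w hw w' hw' e
    obtain ⟨j, -, rfl⟩ := Finset.mem_image.1 hw
    obtain ⟨j', -, rfl⟩ := Finset.mem_image.1 hw'
    simp only at e
    -- wlog
    have key : ∀ x y, x ≤ y → rs lk (f x) = rs lk (f y) → rs (lkF lk f) x = rs (lkF lk f) y := by
      intro x y hxy e
      have h1 := (rs_eq_iff (hf hxy)).1 e
      exact rs_eq_of hxy (lkF_of hf h1)
    rcases Nat.le_total (rs (lkF lk f) j) (rs (lkF lk f) j') with h | h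
    · have := key _ _ h e
      rwa [rs_rs, rs_rs] at this
    · have := key _ _ h e.symm
      rw [rs_rs, rs_rs] at this
      exact this.symm

end map

end Vale.Agent.P106.U.H384.Runs
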