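import Vale.Agent.P106.U.H572.HStep
import Vale.Agent.P106.U.H416.F1P
import Vale.Agent.P106.U.H384.F1Rec

/-!
# P106 / U / H384 : the letter `xH` of a diagonal step of kind 1 along the runs (helper384)

572's `xH R F b pv q k` = digits of the direction and of the curvature of the line, `q` digits below the index `k`.

* **`xH_const`**, `xH_hx` : for fixed `q` it does not change between consecutive a-steps of a run.
* **`hc_xH`** : its entropy given the cell `mtr k b`.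
* **`f1_xH`** : the sum of F1+ (416's `f1k`) for this letter, literally the first information of `hstep`.
* `of_F2z`, `lv_rs`, `gd_rs`, `rk_hiA`, **`xH_vA`** : the same letter as the curvature letter `vA` of a run.
-/

set_option autoImplicit false

namespace Vale.Agent.P106.U.H384.XHr

open Finset Vale.Agent.P127 Vale.Agent.P127.Stk Vale.Agent.P127.U Vale.Agent.P106.W
open Vale.Agent.P127.U.CellD (q2 rd Nb q2_pos q2_add q2_le q2_mul_pow fl1_fl1)
open Vale.Agent.P106.U.Cell (Pth Ray)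
open Vale.Agent.P106.U.S3 (Run Pf F2 F2o mt lv LTh LDk At')
open Vale.Agent.P106.U.H384.Runs Vale.Agent.P106.U.H384.F1
open Vale.Agent.P106.U.H785.Mtr (Mtd Lt YI)
open Vale.Agent.P106.U.H572.HStep (xH vH zH)
open Vale.Agent.P106.U.H416.F1P (IdS mem_IdS Ex cF ruleA Kap)

variable {Ω : Type} [Fintype Ω] {τ υ π : Type} {R : Run Ω τ υ} {p : Run.Num} {F : Pf R π} {K c' g' gU K' : ℝ}
  {Vs Xs Cu Bp : Finset ℕ} {gd : ℕ → Prop} {B bS bV μ : ℕ} {o : Fin 7 → ℝ} {o' : ℕ → ℝ} {s k i j : ℕ}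

/-! ### the runs -/

section runs

/-- more cuts -/
theorem vd_ins (h : VD R p F K Vs Xs Cu gd) (z : ℕ) : VD R p F K Vs Xs (insert z Cu) gd :=
  { h with
    cut := fun i j h1 h2 h3 h4 h5 h6 => h.cut i j h1 h2 h3 h4 h5 (h6.imp_right fun h7 h8 => h7 (Finset.mem_insert_of_mem h8)) }

/-- **the runs, with a cut at the level 0** -/
theorem of_F2z (hP : R.Path p) (hB : 1 ≤ B) (hF : F2 R p K B bS bV F Vs Xs) (hK : 0 ≤ K) :
    ∃ Cu : Finset ℕ, 0 ∈ Cu ∧ (R.m : ℝ) * nR Vs Xs Cu ≤ 3 * (R.h / B) + 2 * R.m ∧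
      VD R p F K Vs Xs Cu (gdK R Vs Xs) := by
  obtain ⟨Cu, c1, h⟩ := VD.of_F2 hP hB hF hK
  refine ⟨insert 0 Cu, Finset.mem_insert_self _ _, ?_, vd_ins h 0⟩
  have e1 : (nR Vs Xs (insert 0 Cu) : ℝ) ≤
      (((Vs.filter fun z => z + 1 ∉ Vs).card + Xs.card + Cu.card + 1 : ℕ) : ℝ) + 1 := by
    have : nR Vs Xs (insert 0 Cu) ≤ ((Vs.filter fun z => z + 1 ∉ Vs).card + Xs.card + Cu.card + 1) + 1 := by
      unfold nR
      have := Finset.card_insert_le 0 Cu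
      omega
    exact_mod_cast this
  have m0 : (0 : ℝ) ≤ R.m := Nat.cast_nonneg _
  have := mul_le_mul_of_nonneg_left e1 m0
  linarith

omit [Fintype Ω] in
/-- the start of a run is of the kind -/
theorem gd_rs {Ω : Type} [Fintype Ω] {τ υ : Type} {R : Run Ω τ υ} (hg : gd k) : gd (rs (lkR R gd Cu) k) := by
  rcases (rs_le (lkR R gd Cu) k).eq_or_lt with h | h
  · rw [h]; exact hg
  · exact (lk_of (lk := lkR R gd Cu) le_rfl h).1

/-- the start of a run is above the level 0 -/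
theorem lv_rs (hP : R.Path p) (h0 : 0 ∈ Cu) (hk : k ≤ R.n + p.J) (h1 : 1 ≤ lv R k) :
    1 ≤ lv R (rs (lkR R gd Cu) k) := by
  by_contra hc
  have hs : lv R (rs (lkR R gd Cu) k) = 0 := by omega
  obtain ⟨e, e1, e2, e3, e4⟩ := exists_a hP (z := 0) (rs_le (lkR R gd Cu) k) hk (by omega) (by omega)
  have hl := lk_of (lk := lkR R gd Cu) e1 e2
  have h5 := lv_isA hP e3
  rcases hl.2.2 with h | h
  · omega
  · exact h (by rw [e4]; exact h0)

/-- the diagonal, from above, `e` = a-step of the level of `k` -/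
theorem rk_hiA (h : VD R p F K Vs Xs Cu gd) (hsk : s ≤ k) {e : ℕ} (hke : k ≤ e) (he : e ≤ R.n + p.J) (hA : R.IsA e)
    (hle : lv R e = lv R k) (hl : ∀ e, s ≤ e → e < k → lkR R gd Cu e) (hg : gd s) (h1 : 1 ≤ lv R s) :
    R.C.rk k + R.C.a s ≤ R.C.rk s + R.C.a k + R.m := by
  have hP := h.pth
  have z0 : lv R 0 = 0 := by
    unfold lv
    rw [hP.a0, Nat.zero_div]
  obtain ⟨e0, d1, d2, d3, d4⟩ := exists_a hP (i := 0) (j := s) (z := lv R s - 1) (Nat.zero_le _) (by omega) (by omega)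
    (by omega)
  have hsk' := lv_mono R hsk
  obtain ⟨e1, b1, b2, b3, b4⟩ : ∃ e1, s ≤ e1 ∧ e1 ≤ e ∧ R.IsA e1 ∧ lv R e1 = lv R s := by
    rcases hsk'.eq_or_lt with h2 | h2
    · exact ⟨e, by omega, le_rfl, hA, by omega⟩
    · obtain ⟨e1, b1, b2, b3, b4⟩ := exists_a hP (z := lv R s) hsk (by omega) le_rfl h2
      exact ⟨e1, b1, by omega, b3, b4⟩
  have hVz : ∀ z, lv R s ≤ z → z ≤ lv R k → z ∈ Vs := fun z z1 z2 => h.lv_run hsk (by omega) hl hg z1 z2
  have c1 := rk_diag hP h.diag (lv R e - lv R e1) e1 e (by have := lv_mono R b2; omega) he b2 b3 hA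
    fun z z1 z2 => hVz z (by omega) (by omega)
  have m1 := a_mul hP (i := s) (by omega)
  have m2 := a_mul hP (i := k) (by omega)
  have m3 := a_mul hP (i := e1) (by omega)
  have m4 := a_mul hP (i := e0) (by omega)
  have c2 : R.C.rk e1 = R.C.rk e0 + R.m := by
    refine h.diag e0 e1 (by omega) d3 b3 ?_ (Or.inr ?_)
    · rw [← m3, ← m4, b4, d4, ← Nat.mul_succ]
      congr 1
      omega
    · rw [b4]
      exact hVz _ le_rfl hsk'
  have c3 := R.C.hk hke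
  have c4 := R.C.hk d2.le
  have m5 : R.m * lv R k = R.m * lv R s + R.m * (lv R e - lv R e1) := by
    rw [hle, b4, ← Nat.mul_add]
    congr 1
    omega
  omega

end runs

/-! ### the letter -/

section letter

/-- **the letter does not change between consecutive a-steps** -/
theorem xH_const (hP : R.Path p) (hf : F2 R p K B bS bV F Vs Xs)
    (hcut : ∀ i j, i ≤ j → j ≤ R.n + p.J → lv R i ∈ Vs → lv R j ∈ Vs → lv R j ≤ lv R i + 1 →
      (lv R i = lv R j ∨ lv R i ∉ Cu) → Fn R.Q (F.pf j) (F.pf i) ∧ ∀ ω, 0 < R.Q.w ω → F.Ao (lv R j) ω = F.Ao (lv R i) ω)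
    (hkj : k < j) (hj : j ≤ R.n + p.J) (Ak : R.IsA k) (Aj : R.IsA j) (hlv : lv R j = lv R k + 1) (hVk : lv R k ∈ Vs)
    (hVj : lv R j ∈ Vs) (hC : lv R k ∉ Cu) (b pv q : ℕ) {ω : Ω} (hω : 0 < R.Q.w ω) :
    xH R F b pv q j ω = xH R F b pv q k ω := by
  have m1 := a_mul hP hj
  have m2 := a_mul hP (i := k) (by omega)
  have ha : R.C.a j = R.C.a k + R.m := by
    rw [← m1, ← m2, hlv]
    ring
  have hr : R.C.rk j = R.C.rk k + R.m := hf.diag k j hj Ak Aj ha (Or.inl hVk)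
  have hA := (hcut k j hkj.le hj hVk hVj (by omega) (Or.inr hC)).2 ω hω
  unfold xH zH fl1
  refine Prod.ext rfl ?_
  show ⌊2 ^ (R.C.rk j + q) * (q2 (R.C.a j) * F.Ao (lv R j) ω)⌋ = ⌊2 ^ (R.C.rk k + q) * (q2 (R.C.a k) * F.Ao (lv R k) ω)⌋
  have e : (2 : ℝ) ^ (R.C.rk j + q) * (q2 (R.C.a j) * F.Ao (lv R j) ω) =
      2 ^ (R.C.rk k + q) * (q2 (R.C.a k) * F.Ao (lv R k) ω) := by
    have h2 := q2_mul_pow R.m
    rw [hA, hr, ha, q2_add, show R.C.rk k + R.m + q = R.C.rk k + q + R.m by omega, pow_add _ _ R.m]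
    calc _ = 2 ^ (R.C.rk k + q) * (q2 (R.C.a k) * F.Ao (lv R k) ω) * (2 ^ R.m * q2 R.m) := by ring
      _ = _ := by rw [h2, mul_one]
  rw [e]

/-- the hypothesis `hx` of 416's `f1k` -/
theorem xH_hx (hP : R.Path p) (hf : F2 R p K B bS bV F Vs Xs)
    (hcut : ∀ i j, i ≤ j → j ≤ R.n + p.J → lv R i ∈ Vs → lv R j ∈ Vs → lv R j ≤ lv R i + 1 →
      (lv R i = lv R j ∨ lv R i ∉ Cu) → Fn R.Q (F.pf j) (F.pf i) ∧ ∀ ω, 0 < R.Q.w ω → F.Ao (lv R j) ω = F.Ao (lv R i) ω)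
    (hCu : Cu ⊆ Bp) {kd : ℕ → Prop} (b pv q : ℕ) :
    ∀ k ∈ IdS R Vs Xs kd R.IsA, ∀ j ∈ IdS R Vs Xs kd R.IsA, k < j → lv R j = lv R k + 1 → lv R k ∉ Bp → lv R j ∉ Bp →
      ∀ ω, 0 < R.Q.w ω → xH R F b pv q j ω = xH R F b pv q k ω := by
  intro k hk j hj hkj hlv hB _ ω hω
  rw [mem_IdS] at hk hj
  exact xH_const hP hf hcut hkj (by omega) hk.2.2.2.2 hj.2.2.2.2 hlv hk.2.1 hj.2.1 (fun h => hB (hCu h)) b pv q hω

/-- **the entropy of the letter given the cell** -/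
theorem hc_xH (hf : F2 R p K B bS bV F Vs Xs) (hK : 0 ≤ K) (hk : k ≤ R.n + p.J) (hV : lv R k ∈ Vs) (b pv q : ℕ)
    {N0 : ℕ} (hN : K ≤ N0) : Stk.hc R.Q (xH R F b pv q k) ((mt R F μ o o').mtr k b) ≤
      pv * Real.log 2 + (q * Real.log 2 + Real.log (8 * N0 + 3)) := by
  have h1 : Stk.hc R.Q (fun ω => fl1 (b + pv) (vH R ω)) ((mt R F μ o o').mtr k b) ≤ pv * Real.log 2 :=
    H420.hc_fl_finer R.Q (mtr_v R.Q (mt R F μ o o') k b)
  have h2 : Stk.hc R.Q (fun ω => fl1 (R.C.rk k + q) (zH R F k ω)) ((mt R F μ o o').mtr k b) ≤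
      q * Real.log 2 + Real.log (8 * N0 + 3) := by
    set M : ℕ := 4 * N0 * 2 ^ q with hM
    have q0 := q2_pos (R.C.a k)
    have hqr := q2_mul_pow (R.C.rk k)
    have near : ∀ ω, 0 < R.Q.w ω →
        |F.Ao (lv R k) ω - F.gv k (F.pf k ω)| * q2 (R.C.a k) ≤ 2 * K * q2 (R.C.rk k) := by
      intro ω hω
      have a1 := hf.gvA k hk ω hω
      have a2 := hf.aoA k hk hV ω hω
      have e0 : q2 (R.C.rk k + R.m * B) ≤ q2 (R.C.rk k) := q2_le (by omega)
      have a3 : K * q2 (R.C.rk k + R.m * B) ≤ K * q2 (R.C.rk k) := mul_le_mul_of_nonneg_left e0 hK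
      have h3 : |F.Ao (lv R k) ω - F.gv k (F.pf k ω)| ≤
          |R.al k ω - F.gv k (F.pf k ω)| + |R.al k ω - F.Ao (lv R k) ω| := by
        rw [show F.Ao (lv R k) ω - F.gv k (F.pf k ω) =
          (R.al k ω - F.gv k (F.pf k ω)) - (R.al k ω - F.Ao (lv R k) ω) by ring]
        exact abs_sub _ _
      have := mul_le_mul_of_nonneg_right h3 q0.le
      linarith
    have key : ∀ ω ω', 0 < R.Q.w ω → 0 < R.Q.w ω' → (mt R F μ o o').mtr k b ω = (mt R F μ o o').mtr k b ω' →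
        |fl1 (R.C.rk k + q) (zH R F k ω') - fl1 (R.C.rk k + q) (zH R F k ω)| ≤ M + 1 := by
      intro ω ω' p1 p2 e
      have e1 := near ω p1
      have e2 := near ω' p2
      have ep : F.pf k ω = F.pf k ω' := mtr_pf R.Q (mt R F μ o o') k b ω ω' p1 p2 e
      rw [← ep] at e2
      have e3 : |F.Ao (lv R k) ω' - F.Ao (lv R k) ω| * q2 (R.C.a k) ≤ 4 * K * q2 (R.C.rk k) := by
        have : |F.Ao (lv R k) ω' - F.Ao (lv R k) ω| ≤ |F.Ao (lv R k) ω' - F.gv k (F.pf k ω)| +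
            |F.Ao (lv R k) ω - F.gv k (F.pf k ω)| := by
          rw [show F.Ao (lv R k) ω' - F.Ao (lv R k) ω = (F.Ao (lv R k) ω' - F.gv k (F.pf k ω)) -
            (F.Ao (lv R k) ω - F.gv k (F.pf k ω)) by ring]
          exact abs_sub _ _
        have := mul_le_mul_of_nonneg_right this q0.le
        linarith
      refine H364.fl1_le_of_near (M := M) ?_
      have hp : (0 : ℝ) < 2 ^ R.C.rk k := by positivity
      unfold zH
      rw [← mul_sub, abs_mul, abs_of_pos q0, q2_add, mul_comm (q2 (R.C.a k))]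
      refine e3.trans ?_
      have hqq := q2_mul_pow q
      have e5 : (M : ℝ) * (q2 (R.C.rk k) * q2 q) = 4 * N0 * q2 (R.C.rk k) * (2 ^ q * q2 q) := by
        rw [hM]
        push_cast
        ring
      rw [e5, hqq, mul_one]
      have := q2_pos (R.C.rk k)
      nlinarith
    refine (hc_le_log R.Q _ _ (2 * M + 3) (H420.few_fl R.Q key)).trans ?_
    have e5 : ((2 * M + 3 : ℕ) : ℝ) ≤ (8 * N0 + 3) * 2 ^ q := by
      rw [hM]
      push_cast
      have : (1 : ℝ) ≤ 2 ^ q := one_le_pow₀ (by norm_num)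
      nlinarith
    refine (Real.log_le_log (by positivity) e5).trans ?_
    rw [Real.log_mul (by positivity) (by positivity), Real.log_pow]
    linarith
  exact (H420.hc_pair_le R.Q _ _ _).trans (add_le_add h1 h2)

/-- the scales -/
theorem cA_eq {δ q : ℕ} (hq : q + (R.C.rk k + R.C.a s) = R.C.rk s + δ + R.C.a k) :
    cA R δ s = 2 ^ (R.C.rk k + q) * q2 (R.C.a k) := by
  have h1 := q2_mul_pow (R.C.a s)
  have h2 := q2_mul_pow (R.C.a k)
  unfold cA
  have e1 : (2 : ℝ) ^ (R.C.rk s + δ) * q2 (R.C.a s) = 2 ^ (R.C.rk s + δ + R.C.a k) * (q2 (R.C.a s) * q2 (R.C.a k)) := by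
    rw [pow_add _ _ (R.C.a k)]
    calc _ = 2 ^ (R.C.rk s + δ) * q2 (R.C.a s) * (2 ^ R.C.a k * q2 (R.C.a k)) := by rw [h2, mul_one]
      _ = _ := by ring
  have e2 : (2 : ℝ) ^ (R.C.rk k + q) * q2 (R.C.a k) = 2 ^ (q + (R.C.rk k + R.C.a s)) * (q2 (R.C.a s) * q2 (R.C.a k)) := by
    rw [show q + (R.C.rk k + R.C.a s) = R.C.rk k + q + R.C.a s by omega, pow_add _ _ (R.C.a s)]
    calc _ = 2 ^ (R.C.rk k + q) * q2 (R.C.a k) * (2 ^ R.C.a s * q2 (R.C.a s)) := by rw [h1, mul_one]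
      _ = _ := by ring
  rw [e1, e2, hq]

/-- **the letter of the step is the letter of the run** -/
theorem xH_vA (h : VD R p F K Vs Xs Cu gd) (hsk : s ≤ k) (hk : k ≤ R.n + p.J)
    (hl : ∀ e, s ≤ e → e < k → lkR R gd Cu e) {pv δ q : ℕ}
    (hq : q + (R.C.rk k + R.C.a s) = R.C.rk s + δ + R.C.a k) {ω : Ω} (hω : 0 < R.Q.w ω) :
    xH R F (R.m * R.b1) pv q k ω = vA R F pv δ s ω := by
  have e1 := h.ao_run hsk hk hl hω
  refine Prod.ext rfl ?_
  show fl1 (R.C.rk k + q) (zH R F k ω) = AL R F δ s ω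
  unfold AL zH fl1
  rw [cA_eq hq, e1, pow_zero, one_mul, mul_assoc]

end letter

/-! ### the sum F1+ -/

section sum

open Classical in
/-- **F1+ for the letter of `hstep`** : the first information, all a-steps of the young levels, kappa regime -/
theorem f1_xH (hok : R.Ok p K c' g' gU) (hf : F2 R p K B bS bV F Vs Xs) (h1 : 1 ≤ K)
    (hB : (100 * K) ^ 20 ≤ (B : ℝ)) (hr : 100 * (R.m * B) ≤ R.r0) (hμB : μ ≤ B) (hμ : μ ≤ R.C.μ)
    (hb : 8 * μ ≤ R.m * R.b1) (hK' : (100 * K) ^ 20 ≤ K') (ho : F2o R p B bS bV F Vs Xs μ K' o o') {d d0 : ℕ}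
    (hd : 2 * μ + R.m ≤ d0 * R.m) (pv q : ℕ) {N0 : ℕ} (hN : K ≤ N0) :
    ∃ Bp : Finset ℕ, Xs ⊆ Bp ∧ (R.m : ℝ) * Bp.card ≤ 3 * (R.h / B) ∧
    ∑ k ∈ IdS R Vs Xs (Kap R) R.IsA, ∑ i ∈ At' R p B d k, mi R.Q (xH R F (R.m * R.b1) pv q k)
      ((mt R F μ o o').mtr i (R.m * R.b1))
      (fun ω => (LDk ((mt R F μ o o').fz k k) (R.m * R.b1) k ω, LTh ((mt R F μ o o').fz k k) (R.m * R.b1) i ω)) ≤
      (pv * Real.log 2 + (q * Real.log 2 + Real.log (8 * N0 + 3))) *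
        (Bp.card + 2 * ((d + d0 : ℕ) : ℝ) * (Bp.card + 1)) + 4 * cF K * (K' * (R.n + p.J + 1) * q2 (μ / 8)) := by
  obtain ⟨Cu, c1, hcut⟩ := hf.cut
  have l2 : 0 ≤ Real.log 2 := Real.log_nonneg (by norm_num)
  have l8 : 0 ≤ Real.log (8 * (N0 : ℝ) + 3) := Real.log_nonneg (by
    have : (0 : ℝ) ≤ N0 := Nat.cast_nonneg _
    linarith)
  refine ⟨(Ex Vs ∪ Xs) ∪ Cu, ?_, ?_, ?_⟩
  · intro x hx
    exact Finset.mem_union_left _ (Finset.mem_union_right _ hx)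
  · have e1 := Finset.card_union_le (Ex Vs ∪ Xs) Cu
    have e2 := Finset.card_union_le (Ex Vs) Xs
    have e3 : (((Ex Vs ∪ Xs) ∪ Cu).card : ℝ) ≤ (Ex Vs).card + Xs.card + Cu.card := by
      exact_mod_cast e1.trans (by omega)
    have m0 : (0 : ℝ) ≤ R.m := Nat.cast_nonneg _
    have e4 := mul_le_mul_of_nonneg_left e3 m0
    have e5 : (R.m : ℝ) * (Ex Vs).card ≤ R.h / B := hf.runs
    have e6 := hf.xs
    linarith
  · refine H416.F1P.f1k hok hf h1 hB hr hμB hμ hb hK' ho (ruleA hok.pth) hd ?_ ?_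
      (fun k => xH R F (R.m * R.b1) pv q k) (fun _ i => (mt R F μ o o').mtr i (R.m * R.b1)) (by positivity) ?_ ?_ ?_
    · intro x hx
      exact Finset.mem_union_left _ (Finset.mem_union_right _ hx)
    · intro x hx
      exact Finset.mem_union_left _ (Finset.mem_union_left _ hx)
    · intro k hk
      rw [mem_IdS] at hk
      exact hc_xH hf (by linarith) (by omega) hk.2.1 (R.m * R.b1) pv q hN
    · exact xH_hx hok.pth hf hcut Finset.subset_union_right (R.m * R.b1) pv q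
    · exact fun _ _ _ _ => fun _ _ _ _ e => e

end sum

end Vale.Agent.P106.U.H384.XHr
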